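import Mathlib.Algebra.BigOperators.Fin
import Mathlib.Algebra.Order.BigOperators.Ring.Finset
import Mathlib.Analysis.Real.Sqrt
import Mathlib.Tactic

/-!
# Pointwise algebra of the Bernstein argument

Everything is expressed in a second order jet: `p` is the gradient, `H` the Hessian, `z`, `Z2` the
derivatives of the cutoff `Z`, `L = √(P/λ)` with `P = |p|² - p₂`.
-/

namespace Vale.Agent.P080.C1.Bernstein

open Finset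

/-- one application of Young's inequality with a square weight -/
lemma young {s lam A X : ℝ} (hs : s ^ 2 = lam) : s * (A * X) ≤ A ^ 2 + lam * X ^ 2 / 4 := by
  subst hs; nlinarith [sq_nonneg (A - s * X / 2)]

/-- absorption of the cutoff errors -/
lemma absorb {C K Z L s lam : ℝ} (Y n : ℝ) (hC : 1 ≤ C) (hK : 20 * C ^ 2 ≤ K) (hZ0 : 0 ≤ Z)
    (hZ1 : Z ≤ 1) (hL : 0 ≤ L) (hs : s ^ 2 = lam) (hM : 100 * C ^ 2 * K + 1 ≤ Z ^ 6 * L ^ 2) :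
    lam + C * lam * Z ^ 4 * (1 + L ^ 2) ^ 2 + C * K * lam * (1 + L ^ 2)
        + C * K * lam * Z ^ 3 * L ^ 3
        + s * (Z ^ 3 * Y * (C * (Z ^ 2 * (1 + L ^ 2) + K * (1 + L))))
        + s * (Z ^ 3 * n * (C * K * (1 + L)))
      ≤ Z ^ 6 * (Y ^ 2 + n ^ 2) + 2 * K * lam * Z ^ 4 * L ^ 4 := by
  have hl : 0 ≤ lam := hs ▸ sq_nonneg s
  have hC2 : 1 ≤ C ^ 2 := one_le_pow₀ hC
  have hK0 : 20 ≤ K := by linarith
  have hZ2 : Z ^ 2 ≤ 1 := pow_le_one₀ hZ0 hZ1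
  have hZ4 : Z ^ 4 ≤ 1 := pow_le_one₀ hZ0 hZ1
  have hZ6 : Z ^ 6 ≤ 1 := pow_le_one₀ hZ0 hZ1
  have h1 : Z ^ 6 * L ^ 2 * L ^ 2 ≤ Z ^ 4 * L ^ 4 := by
    have h := mul_le_mul_of_nonneg_left hZ2 (mul_nonneg (pow_nonneg hZ0 4) (pow_nonneg hL 4))
    linarith only [h, show Z ^ 6 * L ^ 2 * L ^ 2 = Z ^ 4 * L ^ 4 * Z ^ 2 from by ring]
  have hM0 : 1 ≤ 100 * C ^ 2 * K + 1 := by nlinarith
  have h2 : (100 * C ^ 2 * K + 1) * L ^ 2 ≤ Z ^ 4 * L ^ 4 :=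
    (mul_le_mul_of_nonneg_right hM (sq_nonneg L)).trans h1
  have hL1 : 100 * C ^ 2 * K + 1 ≤ L ^ 2 :=
    hM.trans (mul_le_of_le_one_left (sq_nonneg L) hZ6)
  have h3 : (100 * C ^ 2 * K + 1) * (1 + L ^ 2) ≤ 2 * (Z ^ 4 * L ^ 4) := by
    have : 100 * C ^ 2 * K + 1 ≤ (100 * C ^ 2 * K + 1) * L ^ 2 :=
      le_mul_of_one_le_right (by linarith) (by linarith)
    linarith
  have hR : 1 ≤ 1 + L ^ 2 := by linarith [sq_nonneg L]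
  have hCC : C ≤ C ^ 2 := le_self_pow₀ hC (by norm_num)
  -- the three kinds of error
  have hX1 : (C * (Z ^ 2 * (1 + L ^ 2) + K * (1 + L))) ^ 2
      ≤ 4 * C ^ 2 * ((1 + L ^ 2) + Z ^ 4 * L ^ 4) + 4 * (C ^ 2 * K ^ 2 * (1 + L ^ 2)) := by
    have b : (Z ^ 2 * (1 + L ^ 2)) ^ 2 ≤ 2 * (Z ^ 4 + Z ^ 4 * L ^ 4) := by
      linarith [sq_nonneg (Z ^ 2 * (1 - L ^ 2)), show (Z ^ 2 * (1 + L ^ 2)) ^ 2
        = 2 * (Z ^ 4 + Z ^ 4 * L ^ 4) - (Z ^ 2 * (1 - L ^ 2)) ^ 2 from by ring]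
    have c : (K * (1 + L)) ^ 2 ≤ 2 * (K ^ 2 * (1 + L ^ 2)) := by
      linarith [sq_nonneg (K * (1 - L)), show (K * (1 + L)) ^ 2
        = 2 * (K ^ 2 * (1 + L ^ 2)) - (K * (1 - L)) ^ 2 from by ring]
    have d : (Z ^ 2 * (1 + L ^ 2) + K * (1 + L)) ^ 2
        ≤ 4 * ((1 + L ^ 2) + Z ^ 4 * L ^ 4) + 4 * (K ^ 2 * (1 + L ^ 2)) := by
      linarith [sq_nonneg (Z ^ 2 * (1 + L ^ 2) - K * (1 + L))]
    rw [mul_pow, show 4 * C ^ 2 * ((1 + L ^ 2) + Z ^ 4 * L ^ 4) + 4 * (C ^ 2 * K ^ 2 * (1 + L ^ 2))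
      = C ^ 2 * (4 * ((1 + L ^ 2) + Z ^ 4 * L ^ 4) + 4 * (K ^ 2 * (1 + L ^ 2))) from by ring]
    exact mul_le_mul_of_nonneg_left d (sq_nonneg C)
  have hX2 : (C * K * (1 + L)) ^ 2 ≤ 2 * (C ^ 2 * K ^ 2 * (1 + L ^ 2)) := by
    linarith [sq_nonneg (C * K * (1 - L)), show (C * K * (1 + L)) ^ 2
        = 2 * (C ^ 2 * K ^ 2 * (1 + L ^ 2)) - (C * K * (1 - L)) ^ 2 from by ring]
  have hq : Z ^ 4 * (1 + L ^ 2) ^ 2 ≤ 2 * (1 + L ^ 2) + 2 * (Z ^ 4 * L ^ 4) := by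
    linarith [mul_le_mul_of_nonneg_left
      (show (1 + L ^ 2) ^ 2 ≤ 2 + 2 * L ^ 4 by linarith [sq_nonneg (1 - L ^ 2)])
      (pow_nonneg hZ0 4)]
  have hcub : C * (Z ^ 3 * L ^ 3) ≤ Z ^ 4 * L ^ 4 / 4 + C ^ 2 * (1 + L ^ 2) := by
    have b : C ^ 2 * (Z * L) ^ 2 ≤ C ^ 2 * (1 + L ^ 2) := by
      refine mul_le_mul_of_nonneg_left ?_ (sq_nonneg C)
      rw [mul_pow]
      linarith [mul_le_mul_of_nonneg_right hZ2 (sq_nonneg L)]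
    linarith [sq_nonneg (Z ^ 2 * L ^ 2 / 2 - C * (Z * L))]
  have hY := young (A := Z ^ 3 * Y) (X := C * (Z ^ 2 * (1 + L ^ 2) + K * (1 + L))) hs
  have hN := young (A := Z ^ 3 * n) (X := C * K * (1 + L)) hs
  rw [show Z ^ 6 * (Y ^ 2 + n ^ 2) = (Z ^ 3 * Y) ^ 2 + (Z ^ 3 * n) ^ 2 from by ring,
    show C * lam * Z ^ 4 * (1 + L ^ 2) ^ 2 = C * lam * (Z ^ 4 * (1 + L ^ 2) ^ 2) from by ring,
    show C * K * lam * Z ^ 3 * L ^ 3 = K * lam * (C * (Z ^ 3 * L ^ 3)) from by ring,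
    show 2 * K * lam * Z ^ 4 * L ^ 4 = 2 * (K * lam * (Z ^ 4 * L ^ 4)) from by ring]
  generalize s * (Z ^ 3 * Y * _) = a at *
  generalize s * (Z ^ 3 * n * _) = b at *
  generalize (C * (Z ^ 2 * (1 + L ^ 2) + K * (1 + L))) ^ 2 = X1 at *
  generalize (C * K * (1 + L)) ^ 2 = X2 at *
  generalize Z ^ 4 * (1 + L ^ 2) ^ 2 = q at *
  generalize C * (Z ^ 3 * L ^ 3) = t at *
  generalize (Z ^ 3 * Y) ^ 2 = A at *
  generalize (Z ^ 3 * n) ^ 2 = B at *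
  generalize Z ^ 4 * L ^ 4 = Q at *
  generalize 1 + L ^ 2 = R at *
  have hQ : 0 ≤ Q := by
    have := mul_pos (lt_of_lt_of_le one_pos hM0) (lt_of_lt_of_le one_pos hR)
    linarith only [h3, this]
  have e1 : C * lam * q ≤ C ^ 2 * lam * (2 * R + 2 * Q) :=
    (mul_le_mul_of_nonneg_left hq (by positivity)).trans
      (mul_le_mul_of_nonneg_right (mul_le_mul_of_nonneg_right hCC hl) (by linarith))
  have e2 : C * K * lam * R ≤ C ^ 2 * K * lam * R := by gcongr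
  have e3 := mul_le_mul_of_nonneg_left hcub (by positivity : 0 ≤ K * lam)
  have e4 := mul_le_mul_of_nonneg_left hX1 hl
  have e5 := mul_le_mul_of_nonneg_left hX2 hl
  have g1 : C ^ 2 * lam * R * 20 ≤ C ^ 2 * lam * R * K :=
    mul_le_mul_of_nonneg_left hK0 (by positivity)
  have g2 : C ^ 2 * K * lam * R * 20 ≤ C ^ 2 * K * lam * R * K :=
    mul_le_mul_of_nonneg_left hK0 (by positivity)
  have g3 : 20 * C ^ 2 * (lam * Q) ≤ K * (lam * Q) :=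
    mul_le_mul_of_nonneg_right hK (by positivity)
  have g4 : K * lam * ((100 * C ^ 2 * K + 1) * R) ≤ K * lam * (2 * Q) :=
    mul_le_mul_of_nonneg_left h3 (by positivity)
  have g5 : lam ≤ K * lam * R := by
    have h : (1:ℝ) ≤ K * R := by linarith [mul_le_mul_of_nonneg_left hR (by linarith : (0:ℝ) ≤ K)]
    linarith [mul_le_mul_of_nonneg_left h hl]
  have g7 : 1 * (K * lam * R) ≤ C ^ 2 * (K * lam * R) :=
    mul_le_mul_of_nonneg_right hC2 (by positivity)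
  have g6 : 0 ≤ C ^ 2 * K ^ 2 * lam * R := by positivity
  linarith

lemma abs_cmul {a : ℝ} (b : ℝ) (h : 0 ≤ a) : |a * b| = a * |b| := by
  rw [abs_mul, abs_of_nonneg h]

lemma err_g {Cz Z L s lam g Y Lz Az : ℝ} (hCC : Cz ≤ Cz ^ 2) (hCz0 : 0 ≤ Cz) (hZ0 : 0 ≤ Z)
    (hZ54 : Z ^ 5 ≤ Z ^ 4) (hl : 0 ≤ lam) (hs0 : 0 ≤ s) (hY : 0 ≤ Y) (hg0 : 0 ≤ g) (hg : g ≤ 4 * lam * L ^ 2)
    (hlY : lam * (Y / s) = s * Y)
    (hLz : |Lz| ≤ 100 * Cz * ((1 + L ^ 2) + Y / s)) (hAz : |Az| ≤ 100 * Cz ^ 2 * (1 + L ^ 2)) :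
    |g * (6 * Z ^ 5 * Lz + 30 * Z ^ 4 * Az)| ≤
      16000 * Cz ^ 2 * lam * Z ^ 4 * (1 + L ^ 2) ^ 2
        + s * (Z ^ 3 * Y * (3000 * Cz ^ 2 * (Z ^ 2 * (1 + L ^ 2)))) := by
  calc |g * (6 * Z ^ 5 * Lz + 30 * Z ^ 4 * Az)|
      = g * |6 * Z ^ 5 * Lz + 30 * Z ^ 4 * Az| := by rw [abs_mul, abs_of_nonneg hg0]
    _ ≤ g * (6 * Z ^ 5 * |Lz| + 30 * Z ^ 4 * |Az|) := by
        refine mul_le_mul_of_nonneg_left ((abs_add_le _ _).trans_eq ?_) hg0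
        rw [abs_cmul Lz (by positivity : 0 ≤ 6 * Z ^ 5),
          abs_cmul Az (by positivity : 0 ≤ 30 * Z ^ 4)]
    _ ≤ 4 * lam * L ^ 2 * (6 * Z ^ 5 * (100 * Cz * ((1 + L ^ 2) + Y / s))
          + 30 * Z ^ 4 * (100 * Cz ^ 2 * (1 + L ^ 2))) := by gcongr
    _ = 2400 * (Cz * (L ^ 2 * (1 + L ^ 2) * (lam * Z ^ 5)))
          + 2400 * (Cz * (L ^ 2 * ((lam * (Y / s)) * Z ^ 5)))
          + 12000 * (Cz ^ 2 * (L ^ 2 * (1 + L ^ 2) * (lam * Z ^ 4))) := by ring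
    _ ≤ 2400 * (Cz ^ 2 * ((1 + L ^ 2) * (1 + L ^ 2) * (lam * Z ^ 4)))
          + 3000 * (Cz ^ 2 * ((1 + L ^ 2) * ((s * Y) * Z ^ 5)))
          + 12000 * (Cz ^ 2 * ((1 + L ^ 2) * (1 + L ^ 2) * (lam * Z ^ 4))) := by
        rw [hlY]
        gcongr <;> linarith
    _ ≤ _ := by
        have : 0 ≤ Cz ^ 2 * ((1 + L ^ 2) * (1 + L ^ 2) * (lam * Z ^ 4)) := by positivity
        linarith

lemma err_Dg {Cz Z L s ε f N n Y zDg : ℝ} (hCC : Cz ≤ Cz ^ 2) (_hCz0 : 0 ≤ Cz) (hZ0 : 0 ≤ Z)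
    (hZ1 : Z ≤ 1) (hL : 0 ≤ L) (hs0 : 0 ≤ s) (hY : 0 ≤ Y) (hn0 : 0 ≤ n)
    (hεN : 0 ≤ ε * N) (hsn : ε * N ≤ s * n) (hεY0 : 0 ≤ ε * (Y / s))
    (hεY : ε * (Y / s) ≤ s * Y) (hZ53 : Z ^ 5 ≤ Z ^ 3)
    (hzDg : |zDg| ≤ 100 * Cz * (ε * (Y / s) + ε * (N * L) + (1 + L) * (|f| + ε * N + s * (L * Y)))) :
    |12 * Z ^ 5 * zDg| ≤ s * (Z ^ 3 * Y * (5000 * Cz ^ 2 * (Z ^ 2 * (1 + L ^ 2))))
      + s * (Z ^ 3 * n * (3000 * Cz ^ 2 * (1 + L))) + 3000 * Cz ^ 2 * (1 + L) * |f| := by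
  calc |12 * Z ^ 5 * zDg| = 12 * Z ^ 5 * |zDg| := abs_cmul zDg (by positivity)
    _ ≤ 12 * Z ^ 5 * (100 * Cz *
          (ε * (Y / s) + ε * (N * L) + (1 + L) * (|f| + ε * N + s * (L * Y)))) := by gcongr
    _ = 1200 * (Cz * (Z ^ 5 * (ε * (Y / s) + (1 + L) * L * (s * Y))))
          + 1200 * (Cz * (Z ^ 5 * ((1 + 2 * L) * (ε * N))))
          + 1200 * (Cz * (Z ^ 5 * ((1 + L) * |f|))) := by ring
    _ ≤ 1200 * (Cz ^ 2 * (Z ^ 5 * (s * Y + 2 * (1 + L ^ 2) * (s * Y))))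
          + 1200 * (Cz ^ 2 * (Z ^ 3 * (2 * (1 + L) * (s * n))))
          + 1200 * (Cz ^ 2 * (1 * ((1 + L) * |f|))) := by
        have b1 : (1 + L) * L ≤ 2 * (1 + L ^ 2) := by linarith [sq_nonneg (1 - L)]
        have b2 : 1 + 2 * L ≤ 2 * (1 + L) := by linarith
        refine add_le_add (add_le_add ?_ ?_) ?_
        · gcongr
        · gcongr
        · gcongr
          exact pow_le_one₀ hZ0 hZ1
    _ ≤ _ := by
        have : 0 ≤ Cz ^ 2 * (Z ^ 5 * (L ^ 2 * (s * Y))) := by positivity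
        have : 0 ≤ Cz ^ 2 * (Z ^ 5 * (s * Y)) := by positivity
        have : 0 ≤ Cz ^ 2 * (Z ^ 3 * ((1 + L) * (s * n))) := by positivity
        have : 0 ≤ Cz ^ 2 * ((1 + L) * |f|) := by positivity
        linarith

lemma err_w2 {Cz K Z L s lam w Y Lz Az : ℝ} (hCC : Cz ≤ Cz ^ 2) (hCz0 : 0 ≤ Cz) (hK1 : 1 ≤ K)
    (hZ0 : 0 ≤ Z) (hZ21 : Z ^ 2 ≤ 1) (hZ31 : Z ^ 3 ≤ 1) (hL : 0 ≤ L) (hl : 0 < lam) (hs0 : 0 ≤ s)
    (hY : 0 ≤ Y) (hlY : lam * (Y / s) = s * Y) (hw2 : w ^ 2 ≤ 9 * lam ^ 2) (hKl : 0 ≤ K / lam)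
    (hKlam : K / lam * lam = K)
    (hLz : |Lz| ≤ 100 * Cz * ((1 + L ^ 2) + Y / s)) (hAz : |Az| ≤ 100 * Cz ^ 2 * (1 + L ^ 2)) :
    |K / lam * (w ^ 2 * (4 * Z ^ 3 * Lz + 12 * Z ^ 2 * Az))| ≤
      16000 * Cz ^ 2 * K * lam * (1 + L ^ 2)
        + s * (Z ^ 3 * Y * (4000 * Cz ^ 2 * (K * (1 + L)))) := by
  calc |K / lam * (w ^ 2 * (4 * Z ^ 3 * Lz + 12 * Z ^ 2 * Az))|
      = K / lam * (w ^ 2 * |4 * Z ^ 3 * Lz + 12 * Z ^ 2 * Az|) := by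
        rw [abs_cmul _ hKl, abs_cmul _ (sq_nonneg w)]
    _ ≤ K / lam * (w ^ 2 * (4 * Z ^ 3 * |Lz| + 12 * Z ^ 2 * |Az|)) := by
        refine mul_le_mul_of_nonneg_left (mul_le_mul_of_nonneg_left
          ((abs_add_le _ _).trans_eq ?_) (sq_nonneg w)) hKl
        rw [abs_cmul Lz (by positivity : 0 ≤ 4 * Z ^ 3),
          abs_cmul Az (by positivity : 0 ≤ 12 * Z ^ 2)]
    _ ≤ K / lam * (9 * lam ^ 2 * (4 * Z ^ 3 * (100 * Cz * ((1 + L ^ 2) + Y / s))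
          + 12 * Z ^ 2 * (100 * Cz ^ 2 * (1 + L ^ 2)))) := by gcongr
    _ = K / lam * lam * (3600 * (Cz * (Z ^ 3 * (lam * (1 + L ^ 2))))
          + 3600 * (Cz * (Z ^ 3 * (lam * (Y / s))))
          + 10800 * (Cz ^ 2 * (Z ^ 2 * (lam * (1 + L ^ 2))))) := by ring
    _ ≤ K * (3600 * (Cz ^ 2 * (1 * (lam * (1 + L ^ 2))))
          + 4000 * (Cz ^ 2 * (Z ^ 3 * ((1 + L) * (s * Y))))
          + 10800 * (Cz ^ 2 * (1 * (lam * (1 + L ^ 2))))) := by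
        rw [hKlam, hlY]
        have b1 : s * Y ≤ (1 + L) * (s * Y) :=
          le_mul_of_one_le_left (by positivity) (by linarith)
        refine mul_le_mul_of_nonneg_left (add_le_add (add_le_add ?_ ?_) ?_) (by linarith)
        · gcongr
        · refine mul_le_mul (by norm_num) ?_ (by positivity) (by norm_num)
          gcongr
        · gcongr
    _ ≤ _ := by
        have : 0 ≤ K * (Cz ^ 2 * (lam * (1 + L ^ 2))) := by positivity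
        linarith

lemma err_zd {Cz K Z L lam w zd : ℝ} (hCC : Cz ≤ Cz ^ 2) (_hCz0 : 0 ≤ Cz) (hK1 : 1 ≤ K)
    (hZ0 : 0 ≤ Z) (hZ31 : Z ^ 3 ≤ 1) (hL : 0 ≤ L) (hLL : L ≤ (1 + L ^ 2) / 2) (hl : 0 < lam)
    (hw : |w| ≤ 3 * lam) (hKl : 0 ≤ K / lam) (hKlam : K / lam * lam = K)
    (hzd : |zd| ≤ 10 * Cz * (lam * L + (1 + L) * (lam * L ^ 2))) :
    |K / lam * (16 * Z ^ 3 * w * zd)| ≤
      1000 * Cz ^ 2 * K * lam * (1 + L ^ 2) + 1000 * Cz ^ 2 * K * lam * Z ^ 3 * L ^ 3 := by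
  calc |K / lam * (16 * Z ^ 3 * w * zd)| = K / lam * (16 * Z ^ 3 * |w| * |zd|) := by
        rw [abs_cmul _ hKl, abs_mul, abs_cmul w (by positivity : 0 ≤ 16 * Z ^ 3)]
    _ ≤ K / lam * (16 * Z ^ 3 * (3 * lam) *
          (10 * Cz * (lam * L + (1 + L) * (lam * L ^ 2)))) := by gcongr
    _ = K / lam * lam * (480 * (Cz * (Z ^ 3 * (lam * (L + L ^ 2))))
          + 480 * (Cz * (lam * Z ^ 3 * L ^ 3))) := by ring
    _ ≤ K * (480 * (Cz ^ 2 * (1 * (lam * (2 * (1 + L ^ 2)))))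
          + 480 * (Cz ^ 2 * (lam * Z ^ 3 * L ^ 3))) := by
        rw [hKlam]
        gcongr
        linarith [sq_nonneg L]
    _ ≤ _ := by
        have : 0 ≤ K * (Cz ^ 2 * (lam * (1 + L ^ 2))) := by positivity
        have : 0 ≤ K * (Cz ^ 2 * (lam * Z ^ 3 * L ^ 3)) := by positivity
        linarith

lemma err_Lw {Cz K Z L s lam ε w f N n Y Lw : ℝ} (hCz : 1 ≤ Cz) (hK1 : 1 ≤ K)
    (hZ0 : 0 ≤ Z) (hZ1 : Z ≤ 1) (hZ43 : Z ^ 4 ≤ Z ^ 3) (hL : 0 ≤ L) (hl : 0 < lam) (hs0 : 0 ≤ s)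
    (hY : 0 ≤ Y) (_hn0 : 0 ≤ n) (hεN : 0 ≤ ε * N) (hsn : ε * N ≤ s * n)
    (hw : |w| ≤ 3 * lam) (hKl : 0 ≤ K / lam) (hKlam : K / lam * lam = K)
    (hLw : |Lw| ≤ 20 * (|f| + ε * N + s * (L * Y))) :
    |K / lam * (2 * Z ^ 4 * w * Lw)| ≤
      s * (Z ^ 3 * Y * (120 * Cz ^ 2 * (K * (1 + L))))
      + s * (Z ^ 3 * n * (120 * Cz ^ 2 * K * (1 + L))) + 120 * Cz ^ 2 * K * (1 + L) * |f| := by
  calc |K / lam * (2 * Z ^ 4 * w * Lw)| = K / lam * (2 * Z ^ 4 * |w| * |Lw|) := by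
        rw [abs_cmul _ hKl, abs_mul, abs_cmul w (by positivity : 0 ≤ 2 * Z ^ 4)]
    _ ≤ K / lam * (2 * Z ^ 4 * (3 * lam) * (20 * (|f| + ε * N + s * (L * Y)))) := by gcongr
    _ = K / lam * lam * (120 * (1 * (Z ^ 4 * (1 * |f|))) + 120 * (1 * (Z ^ 4 * (1 * (ε * N))))
          + 120 * (1 * (Z ^ 4 * (L * (s * Y))))) := by ring
    _ ≤ K * (120 * (Cz ^ 2 * (1 * ((1 + L) * |f|))) + 120 * (Cz ^ 2 * (Z ^ 3 * ((1 + L) * (s * n))))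
          + 120 * (Cz ^ 2 * (Z ^ 3 * ((1 + L) * (s * Y))))) := by
        rw [hKlam]
        have b1 : (1 : ℝ) ≤ Cz ^ 2 := one_le_pow₀ hCz
        have b2 : (1 : ℝ) ≤ 1 + L := by linarith
        have b3 : L ≤ 1 + L := by linarith
        have b4 : Z ^ 4 ≤ 1 := pow_le_one₀ hZ0 hZ1
        refine mul_le_mul_of_nonneg_left (add_le_add (add_le_add ?_ ?_) ?_) (by linarith)
        · gcongr
        · gcongr
        · gcongr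
    _ = _ := by ring

/-- collecting the error terms: magnitudes only -/
lemma combine {Cz K Z L s lam ε g w f N Y Lz Az zDg zd Lw dd G : ℝ} (hCz : 1 ≤ Cz)
    (hK : 20 * (100000 * Cz ^ 2) ^ 2 ≤ K) (hZ0 : 0 ≤ Z) (hZ1 : Z ≤ 1) (hL : 0 ≤ L) (hs0 : 0 < s)
    (hs : s ^ 2 = lam) (hε0 : 0 ≤ ε) (hε : ε ≤ lam) (hY : 0 ≤ Y) (hN : 0 ≤ N) (hg0 : 0 ≤ g)
    (hg : g ≤ 4 * lam * L ^ 2) (hw : |w| ≤ 3 * lam)
    (hLz : |Lz| ≤ 100 * Cz * ((1 + L ^ 2) + Y / s))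
    (hAz : |Az| ≤ 100 * Cz ^ 2 * (1 + L ^ 2))
    (hzDg : |zDg| ≤ 100 * Cz * (ε * (Y / s) + ε * (N * L) + (1 + L) * (|f| + ε * N + s * (L * Y))))
    (hzd : |zd| ≤ 10 * Cz * (lam * L + (1 + L) * (lam * L ^ 2)))
    (hLw : |Lw| ≤ 20 * (|f| + ε * N + s * (L * Y)))
    (hdd : (lam * L ^ 2) ^ 2 ≤ dd)
    (hG : Y ^ 2 + ε * N ^ 2 ≤ G)
    (hM : 100 * (100000 * Cz ^ 2) ^ 2 * K + 1 ≤ Z ^ 6 * L ^ 2) :
    lam ≤ Z ^ 6 * G + g * (6 * Z ^ 5 * Lz + 30 * Z ^ 4 * Az) + 12 * Z ^ 5 * zDg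
        + K / lam * (w ^ 2 * (4 * Z ^ 3 * Lz + 12 * Z ^ 2 * Az) + 16 * Z ^ 3 * w * zd
          + 2 * Z ^ 4 * w * Lw + 2 * Z ^ 4 * dd)
      + 100000 * Cz ^ 2 * K * (1 + L) * |f| := by
  have hl : 0 < lam := hs ▸ pow_pos hs0 2
  have hC : 1 ≤ 100000 * Cz ^ 2 := by nlinarith
  have hCC : Cz ≤ Cz ^ 2 := le_self_pow₀ hCz (by norm_num)
  have hK1 : 1 ≤ K := by nlinarith
  have hCz0 : 0 ≤ Cz := zero_le_one.trans hCz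
  obtain ⟨n, hn0, hn, hsn⟩ : ∃ n, 0 ≤ n ∧ n ^ 2 = ε * N ^ 2 ∧ ε * N ≤ s * n := by
    refine ⟨Real.sqrt ε * N, by positivity, by rw [mul_pow, Real.sq_sqrt hε0], ?_⟩
    have h : Real.sqrt ε ≤ s := by
      rw [← Real.sqrt_sq hs0.le, hs]; exact Real.sqrt_le_sqrt hε
    calc ε * N = Real.sqrt ε * (Real.sqrt ε * N) := by rw [← mul_assoc, Real.mul_self_sqrt hε0]
      _ ≤ s * (Real.sqrt ε * N) := mul_le_mul_of_nonneg_right h (by positivity)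
  have hεY : ε * (Y / s) ≤ s * Y := by
    have : ε / s ≤ s := by rw [div_le_iff₀ hs0, ← sq, hs]; exact hε
    calc ε * (Y / s) = ε / s * Y := by ring
      _ ≤ s * Y := mul_le_mul_of_nonneg_right this hY
  have hlY : lam * (Y / s) = s * Y := by rw [← hs]; field_simp
  have hw2 : w ^ 2 ≤ 9 * lam ^ 2 := by
    have := pow_le_pow_left₀ (abs_nonneg w) hw 2
    rw [sq_abs] at this; linarith
  have hLL : L ≤ (1 + L ^ 2) / 2 := by linarith [sq_nonneg (1 - L)]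
  have hZ21 : Z ^ 2 ≤ 1 := pow_le_one₀ hZ0 hZ1
  have hZ54 : Z ^ 5 ≤ Z ^ 4 := pow_le_pow_of_le_one hZ0 hZ1 (by norm_num)
  have hZ53 : Z ^ 5 ≤ Z ^ 3 := pow_le_pow_of_le_one hZ0 hZ1 (by norm_num)
  have hZ43 : Z ^ 4 ≤ Z ^ 3 := pow_le_pow_of_le_one hZ0 hZ1 (by norm_num)
  have hZ31 : Z ^ 3 ≤ 1 := pow_le_one₀ hZ0 hZ1
  -- the five error terms
  have e1 := err_g hCC hCz0 hZ0 hZ54 hl.le hs0.le hY hg0 hg hlY hLz hAz
  have e2 := err_Dg hCC hCz0 hZ0 hZ1 hL hs0.le hY hn0 (by positivity) hsn (by positivity) hεY hZ53 hzDg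
  have hKl : 0 ≤ K / lam := by positivity
  have hKlam : K / lam * lam = K := div_mul_cancel₀ _ hl.ne'
  have e3 := err_w2 hCC hCz0 hK1 hZ0 hZ21 hZ31 hL hl hs0.le hY hlY hw2 hKl hKlam hLz hAz
  have e4 := err_zd hCC hCz0 hK1 hZ0 hZ31 hL hLL hl hw hKl hKlam hzd
  have e5 := err_Lw hCz hK1 hZ0 hZ1 hZ43 hL hl hs0.le hY hn0 (by positivity) hsn hw hKl hKlam hLw
  -- the gain
  have e6 : 2 * K * lam * Z ^ 4 * L ^ 4 ≤ K / lam * (2 * Z ^ 4 * dd) := by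
    calc 2 * K * lam * Z ^ 4 * L ^ 4 = K / lam * lam * (2 * Z ^ 4 * (lam * L ^ 4)) := by
          rw [hKlam]; ring
      _ = K / lam * (2 * Z ^ 4 * (lam * L ^ 2) ^ 2) := by ring
      _ ≤ _ := by gcongr
  have e7 : Z ^ 6 * (Y ^ 2 + n ^ 2) ≤ Z ^ 6 * G := by rw [hn]; gcongr
  have ha := absorb (C := 100000 * Cz ^ 2) Y n hC hK hZ0 hZ1 hL hs hM
  have x1 : 0 ≤ s * (Z ^ 3 * Y * (Cz ^ 2 * (Z ^ 2 * (1 + L ^ 2)))) := by positivity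
  have x2 : 0 ≤ s * (Z ^ 3 * Y * (Cz ^ 2 * (K * (1 + L)))) := by positivity
  have x3 : 0 ≤ (K - 1) * (s * (Z ^ 3 * n * (Cz ^ 2 * (1 + L)))) :=
    mul_nonneg (by linarith) (by positivity)
  have x4 : 0 ≤ (K - 1) * (Cz ^ 2 * (1 + L) * |f|) := mul_nonneg (by linarith) (by positivity)
  have x5 : 0 ≤ Cz ^ 2 * lam * Z ^ 4 * (1 + L ^ 2) ^ 2 := by positivity
  have x6 : 0 ≤ Cz ^ 2 * K * lam * (1 + L ^ 2) := by positivity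
  have x7 : 0 ≤ Cz ^ 2 * K * lam * Z ^ 3 * L ^ 3 := by positivity
  have x8 : 0 ≤ s * (Z ^ 3 * n * (Cz ^ 2 * K * (1 + L))) := by positivity
  have x9 : 0 ≤ Cz ^ 2 * K * (1 + L) * |f| := by positivity
  linarith [abs_le.1 e1, abs_le.1 e2, abs_le.1 e3, abs_le.1 e4, abs_le.1 e5]

end Vale.Agent.P080.C1.Bernstein
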