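import Vale.Agent.P080.C1.Bernstein.Weak

/-!
# The error of the weak maximum principle is linear in the Hessian
-/

namespace Vale.Agent.P080.C1.Bernstein

open scoped ContDiff Topology RealInnerProductSpace
open Set Filter MeasureTheory

variable {u : E3 → ℝ}

lemma abs_sum3_le {a : Fin 3 → ℝ} {A : ℝ} (h : ∀ i, |a i| ≤ A) : |∑ i, a i| ≤ 3 * A := by
  rw [sum3]; linarith [abs_add3 (h 0) (h 1) (h 2)]

lemma exists_deriv_bound (B : ℝ) :
    ∃ G, ∀ s, |s| ≤ B → |deriv Real.smoothTransition s| ≤ G := by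
  obtain ⟨G, hG⟩ := (isCompact_Icc (a := -B) (b := B)).exists_bound_of_continuousOn
    ((Real.smoothTransition.contDiff (n := 1)).continuous_deriv le_rfl).continuousOn
  exact ⟨G, fun s hs => hG s (abs_le.1 hs)⟩

lemma exists_err_bound {Cz K lam ε α β : ℝ} (hab : α = 1 ∧ β = 0 ∨ α = 2 ∧ β = -1 / 2)
    (hCz : 1 ≤ Cz) (hcut : ∀ x, ∀ i, |pd i (cut lam) x| * sigma lam i ≤ Cz)
    (hK : 0 ≤ K) (hlam : 0 < lam) (hlam1 : lam ≤ 1) (hε : 0 < ε) (k c : ℝ) (hc : 0 ≤ c) :
    ∃ M : ℝ, 0 ≤ M ∧ ∀ (u : E3 → ℝ) (x : E3), ContDiff ℝ ∞ u →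
      |pd 2 u x - 1| ≤ 1 / 16 → pLatSq u x ≤ 1 / 16 → |wfun u x| ≤ 3 * lam →
        0 ≤ err K lam α β k ε c u x ∧
          err K lam α β k ε c u x ≤ M * (1 + Real.sqrt (hessSq u x)) := by
  obtain ⟨G, hG⟩ := exists_deriv_bound (|k| + (40 + K / lam * 9))
  set Z1 := Cz / Real.sqrt lam with hZ1
  set A := 6 * Z1 * 40 + K / lam * (36 * Z1 + 18) with hA
  set Mu := Real.exp (12 / (2 * ε)) with hMu
  have hs0 : 0 < Real.sqrt lam := Real.sqrt_pos.2 hlam
  have hKl : 0 ≤ K / lam := by positivity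
  have hZ10 : 0 ≤ Z1 := by positivity
  have hA0 : 0 ≤ A := by positivity
  have hG0 : 0 ≤ |G| := abs_nonneg G
  refine ⟨3 * (|G| * (A + 15) * Mu * 5 + Mu * (30 / ε + 30 * Z1 + 2)) + Mu * (c + 6 * (A + 15) / ε),
    by positivity, fun u x hu h1 h2 h3 => ?_⟩
  have hMu0 : 0 ≤ Mu := (Real.exp_pos _).le
  have hψ0 : 0 ≤ psi K lam α β k u x := Real.smoothTransition.nonneg _
  have hψ1 : psi K lam α β k u x ≤ 1 := Real.smoothTransition.le_one _
  refine ⟨add_nonneg (abs_nonneg _) (mul_nonneg hψ0 (mul_nonneg (Real.exp_pos _).le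
    (add_nonneg hc (by positivity)))), ?_⟩
  set N := Real.sqrt (hessSq u x) with hN'
  have hN : 0 ≤ N := Real.sqrt_nonneg _
  have hHN : ∀ i j, |Hv u x i j| ≤ N := fun i j => by
    rw [← Real.sqrt_sq_eq_abs]
    refine Real.sqrt_le_sqrt ((Finset.single_le_sum (f := fun l => pd2 i l u x ^ 2)
      (fun l _ => sq_nonneg _) (Finset.mem_univ j)).trans ?_)
    exact Finset.single_le_sum (f := fun k => ∑ l, pd2 k l u x ^ 2)
      (fun k _ => Finset.sum_nonneg fun l _ => sq_nonneg _) (Finset.mem_univ i)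
  obtain ⟨hb1, hb2⟩ := abs_le.1 h1
  rw [pLatSq] at h2
  have hp : ∀ i, |pd i u x| ≤ 2 := fun i => by
    refine abs_le_of_sq_le_sq ?_ (by norm_num)
    fin_cases i <;> simp <;> nlinarith [sq_nonneg (pd 0 u x), sq_nonneg (pd 1 u x)]
  have hg' : ∀ j, |α * pd j u x + β * eJ j| ≤ 5 := fun j => by
    refine (abs_add_le _ _).trans ?_
    have he : |eJ j| ≤ 1 := by rw [eJ]; split_ifs <;> norm_num
    rcases hab with ⟨rfl, rfl⟩ | ⟨rfl, rfl⟩
    · have := hp j; simp; linarith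
    · rw [abs_mul, abs_mul]
      norm_num
      linarith [hp j]
  have hq : ∀ i, |qJ (Pv u x) (Hv u x) i| ≤ 6 * N := fun i => by
    refine (abs_sum3_le fun j => abs_mul_le (hHN i j) (hp j)).trans ?_
    linarith
  have hDg : ∀ i, |DgJ α β (Pv u x) (Hv u x) i| ≤ 15 * N := fun i => by
    refine (abs_sum3_le fun j => abs_mul_le (hHN i j) (hg' j)).trans ?_
    linarith
  have hgs : gsq u x ≤ 2 := by
    simp only [gsq, sum3]; nlinarith
  have hgs0 : 0 ≤ gsq u x := Finset.sum_nonneg fun i _ => sq_nonneg _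
  have hgf : |gfun α β u x| ≤ 40 := by
    have h : gfun α β u x = α * ((gsq u x - 1) / 2) + β * (pd 2 u x - 1) := by
      simp only [gfun, gJ, Pv, gsq]
    rw [h, abs_le]
    rcases hab with ⟨rfl, rfl⟩ | ⟨rfl, rfl⟩ <;> constructor <;> linarith
  have hμ : mu ε u x ≤ Mu := by
    refine Real.exp_le_exp.2 ?_
    gcongr
    linarith
  have hμ0 : 0 ≤ mu ε u x := (Real.exp_pos _).le
  have hz : ∀ i, |pd i (cut lam) x| ≤ Z1 := fun i => by
    rw [hZ1, le_div_iff₀ hs0]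
    refine (mul_le_mul_of_nonneg_left ?_ (abs_nonneg _)).trans (hcut x i)
    rw [sigma]; split_ifs
    · exact Real.sqrt_le_one.2 hlam1
    · exact le_rfl
  clear_value Mu A Z1
  have hc0 := cut_nonneg lam x
  have hc1 := cut_le_one lam x
  have hcn : ∀ n : ℕ, |cut lam x ^ n| ≤ 1 := fun n => by
    rw [abs_of_nonneg (pow_nonneg hc0 n)]; exact pow_le_one₀ hc0 hc1
  have hw2 : |wfun u x ^ 2| ≤ 9 := by
    rw [abs_pow]
    calc |wfun u x| ^ 2 ≤ 3 ^ 2 := pow_le_pow_left₀ (abs_nonneg _) (by linarith) 2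
      _ = 9 := by norm_num
  have hΦ : |Phi K lam α β u x - k| ≤ |k| + (40 + K / lam * 9) := by
    have a : |Z6f lam x * gfun α β u x| ≤ 1 * 40 := by
      refine abs_mul_le ?_ hgf
      rw [Z6f, Z4f, Z2f, ← pow_two, ← pow_two, ← pow_mul, ← pow_add]
      exact hcn _
    have b : |K / lam * (Z4f lam x * (wfun u x * wfun u x))| ≤ K / lam * (1 * 9) := by
      rw [abs_cmul _ hKl]
      refine mul_le_mul_of_nonneg_left (abs_mul_le ?_ ?_) hKl
      · rw [Z4f, Z2f, ← pow_two, ← pow_two, ← pow_mul]; exact hcn _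
      · rw [← pow_two]; exact hw2
    rw [Phi]
    refine (abs_sub _ _).trans ?_
    linarith [abs_add_le (Z6f lam x * gfun α β u x) (K / lam * (Z4f lam x * (wfun u x * wfun u x)))]
  have hG' : |deriv Real.smoothTransition (Phi K lam α β u x - k)| ≤ |G| :=
    (hG _ hΦ).trans (le_abs_self G)
  have hD : ∀ i, |pd i (Phi K lam α β u) x| ≤ (A + 15) * (1 + N) := fun i => by
    rw [pd_Phi K lam α β hu]
    have a : |6 * cut lam x ^ 5 * pd i (cut lam) x * gfun α β u x| ≤ 6 * 1 * Z1 * 40 :=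
      abs_mul_le (abs_mul_le (abs_mul_le (by norm_num) (hcn 5)) (hz i)) hgf
    have b : |cut lam x ^ 6 * DgJ α β (Pv u x) (Hv u x) i| ≤ 1 * (15 * N) :=
      abs_mul_le (hcn 6) (hDg i)
    have c' : |K / lam * (4 * cut lam x ^ 3 * pd i (cut lam) x * wfun u x ^ 2
        + 2 * cut lam x ^ 4 * wfun u x * (pd i u x - eJ i))| ≤
        K / lam * (4 * 1 * Z1 * 9 + 2 * 1 * 3 * 3) := by
      rw [abs_cmul _ hKl]
      refine mul_le_mul_of_nonneg_left ((abs_add_le _ _).trans (add_le_add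
        (abs_mul_le (abs_mul_le (abs_mul_le (by norm_num) (hcn 3)) (hz i)) hw2)
        (abs_mul_le (abs_mul_le (abs_mul_le (by norm_num) (hcn 4)) (by linarith)) ?_))) hKl
      refine (abs_sub _ _).trans ?_
      have : |eJ i| ≤ 1 := by rw [eJ]; split_ifs <;> norm_num
      linarith [hp i]
    have := mul_nonneg hA0 hN
    linarith [abs_add3 a b c', hA]
  have hpD : |∑ j, pd j u x * pd j (Phi K lam α β u) x| ≤ 3 * (2 * ((A + 15) * (1 + N))) :=
    abs_sum3_le fun j => abs_mul_le (hp j) (hD j)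
  have hV : |∑ j, pd j (fld K lam α β k ε u j) x| ≤
      3 * ((|G| * (A + 15) * Mu * 5 + Mu * (30 / ε + 30 * Z1 + 2)) * (1 + N)) := by
    refine abs_sum3_le fun j => ?_
    rw [pd_fld K lam α β k ε hu]
    have hμ' : |mu ε u x| ≤ Mu := by rw [abs_of_nonneg hμ0]; exact hμ
    have hψ' : |psi K lam α β k u x| ≤ 1 := by rw [abs_of_nonneg hψ0]; exact hψ1
    have a : |deriv Real.smoothTransition (Phi K lam α β u x - k) * pd j (Phi K lam α β u) x
          * mu ε u x * cut lam x ^ 6 * (α * pd j u x + β * eJ j)|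
        ≤ |G| * ((A + 15) * (1 + N)) * Mu * 1 * 5 :=
      abs_mul_le (abs_mul_le (abs_mul_le (abs_mul_le hG' (hD j)) hμ') (hcn 6)) (hg' j)
    have b : |qJ (Pv u x) (Hv u x) j / ε * cut lam x ^ 6 * (α * pd j u x + β * eJ j)|
        ≤ 6 * N / ε * 1 * 5 := by
      refine abs_mul_le (abs_mul_le ?_ (hcn 6)) (hg' j)
      rw [abs_div, abs_of_pos hε]
      gcongr
      exact hq j
    have b' : |6 * cut lam x ^ 5 * pd j (cut lam) x * (α * pd j u x + β * eJ j)| ≤ 6 * 1 * Z1 * 5 :=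
      abs_mul_le (abs_mul_le (abs_mul_le (by norm_num) (hcn 5)) (hz j)) (hg' j)
    have b'' : |cut lam x ^ 6 * (α * Hv u x j j)| ≤ 1 * (2 * N) := by
      refine abs_mul_le (hcn 6) (abs_mul_le ?_ (hHN j j))
      rcases hab with ⟨rfl, rfl⟩ | ⟨rfl, rfl⟩ <;> norm_num
    refine (abs_add_le _ _).trans ((add_le_add a
      (abs_mul_le (abs_mul_le hψ' hμ') (abs_add3 b b' b''))).trans ?_)
    have : 0 ≤ Mu * (30 / ε) := by positivity
    have : 0 ≤ Mu * Z1 * N := by positivity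
    simp only [div_eq_mul_inv] at *
    linarith
  have hlast : psi K lam α β k u x
      * (mu ε u x * (c + |∑ j, pd j u x * pd j (Phi K lam α β u) x| / ε))
      ≤ Mu * (c + 6 * (A + 15) / ε) * (1 + N) := by
    calc psi K lam α β k u x * (mu ε u x * (c + |∑ j, pd j u x * pd j (Phi K lam α β u) x| / ε))
        ≤ 1 * (Mu * (c + 3 * (2 * ((A + 15) * (1 + N))) / ε)) := by gcongr
      _ ≤ _ := by
          have : 0 ≤ Mu * c * N := by positivity
          simp only [div_eq_mul_inv] at *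
          linarith
  rw [err]
  linarith

end Vale.Agent.P080.C1.Bernstein
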