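import Vale.Agent.P080.C1.Bernstein.Jet
import Vale.Agent.P080.C1.Basic
import Mathlib.Analysis.SpecialFunctions.ExpDeriv
import Mathlib.Analysis.Calculus.FDeriv.Symmetric
import Mathlib.Analysis.Calculus.ContDiff.Operations

/-!
# Calculus for the linearised operator
-/

namespace Vale.Agent.P080.C1.Bernstein

open scoped ContDiff Topology RealInnerProductSpace
open Set Filter MeasureTheory

/-- gradient components -/
noncomputable def Pv (u : E3 → ℝ) (x : E3) (i : Fin 3) : ℝ := pd i u x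

/-- Hessian components -/
noncomputable def Hv (u : E3 → ℝ) (x : E3) (i j : Fin 3) : ℝ := pd2 i j u x

/-- linearised operator at `u` -/
noncomputable def lop (ε : ℝ) (u φ : E3 → ℝ) (x : E3) : ℝ :=
  LJ ε (Pv u x) (Hv u x) (Pv φ x) (Hv φ x)

/-- its coefficient form -/
noncomputable def aform (ε : ℝ) (u φ ψ : E3 → ℝ) (x : E3) : ℝ :=
  aJ ε (Pv u x) (Pv φ x) (Pv ψ x)

variable {φ ψ u : E3 → ℝ}

lemma contDiff_pd (h : ContDiff ℝ ∞ φ) (i : Fin 3) : ContDiff ℝ ∞ (pd i φ) :=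
  (h.fderiv_right (m := ∞) le_rfl).clm_apply contDiff_const

lemma diff_of (h : ContDiff ℝ ∞ φ) : Differentiable ℝ φ := h.differentiable (by simp)

lemma pd_add (hφ : ContDiff ℝ ∞ φ) (hψ : ContDiff ℝ ∞ ψ) (i : Fin 3) :
    pd i (fun y => φ y + ψ y) = fun y => pd i φ y + pd i ψ y := by
  funext x
  rw [pd, HasFDerivAt.fderiv (f := fun y => φ y + ψ y)
    ((diff_of hφ x).hasFDerivAt.add (diff_of hψ x).hasFDerivAt)]
  rfl

lemma pd_const_mul (hφ : ContDiff ℝ ∞ φ) (c : ℝ) (i : Fin 3) :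
    pd i (fun y => c * φ y) = fun y => c * pd i φ y := by
  funext x
  rw [pd, HasFDerivAt.fderiv (f := fun y => c * φ y) ((diff_of hφ x).hasFDerivAt.const_mul c)]
  rfl

lemma pd_add_const (φ : E3 → ℝ) (c : ℝ) (i : Fin 3) :
    pd i (fun y => φ y + c) = pd i φ := by
  funext x
  simp [pd]

lemma pd_mul (hφ : ContDiff ℝ ∞ φ) (hψ : ContDiff ℝ ∞ ψ) (i : Fin 3) :
    pd i (fun y => φ y * ψ y) = fun y => φ y * pd i ψ y + ψ y * pd i φ y := by
  funext x
  rw [pd, HasFDerivAt.fderiv (f := fun y => φ y * ψ y)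
    ((diff_of hφ x).hasFDerivAt.mul (diff_of hψ x).hasFDerivAt)]
  rfl

lemma pd_sum3 {F : Fin 3 → E3 → ℝ} (h : ∀ j, ContDiff ℝ ∞ (F j)) (i : Fin 3) :
    pd i (fun y => ∑ j, F j y) = fun y => ∑ j, pd i (F j) y := by
  funext x
  rw [pd, HasFDerivAt.fderiv (f := fun y => ∑ j, F j y)
    (HasFDerivAt.fun_sum fun j _ => (diff_of (h j) x).hasFDerivAt)]
  simp [pd]

lemma pd_comp {g : ℝ → ℝ} (hg : ContDiff ℝ ∞ g) (hφ : ContDiff ℝ ∞ φ) (i : Fin 3) :
    pd i (fun y => g (φ y)) = fun y => deriv g (φ y) * pd i φ y := by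
  funext x
  rw [pd, HasFDerivAt.fderiv (f := fun y => g (φ y))
    (((hg.differentiable (by simp)) (φ x)).hasDerivAt.comp_hasFDerivAt x (diff_of hφ x).hasFDerivAt)]
  rfl

lemma pd_comm (hφ : ContDiff ℝ ∞ φ) (i j : Fin 3) : pd i (pd j φ) = pd j (pd i φ) := by
  funext x
  have hd : DifferentiableAt ℝ (fderiv ℝ φ) x :=
    (hφ.fderiv_right (m := 1) (WithTop.coe_le_coe.2 le_top)).differentiable (by norm_num) x
  have h2 : ∀ i j : Fin 3, pd i (pd j φ) x
      = fderiv ℝ (fderiv ℝ φ) x (EuclideanSpace.single i 1) (EuclideanSpace.single j 1) := by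
    intro i j
    show fderiv ℝ (fun y => fderiv ℝ φ y (EuclideanSpace.single j 1)) x _ = _
    rw [fderiv_clm_apply hd (differentiableAt_const _)]
    simp
  rw [h2, h2]
  exact (hφ.contDiffAt.isSymmSndFDerivAt
    (by rw [minSmoothness_of_isRCLikeNormedField]; exact WithTop.coe_le_coe.2 le_top)).eq _ _

lemma Hv_symm (hu : ContDiff ℝ ∞ u) (x : E3) (i j : Fin 3) : Hv u x i j = Hv u x j i := by
  rw [Hv, Hv, pd2, pd2, pd_comm hu]

lemma pd2_mul (hφ : ContDiff ℝ ∞ φ) (hψ : ContDiff ℝ ∞ ψ) (i j : Fin 3) (x : E3) :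
    pd2 i j (fun y => φ y * ψ y) x = φ x * pd2 i j ψ x + ψ x * pd2 i j φ x
      + (pd i φ x * pd j ψ x + pd i ψ x * pd j φ x) := by
  rw [pd2, pd_mul hφ hψ, pd_add (hφ.mul (contDiff_pd hψ j)) (hψ.mul (contDiff_pd hφ j)),
    pd_mul hφ (contDiff_pd hψ j), pd_mul hψ (contDiff_pd hφ j)]
  simp only [pd2]
  ring

lemma lop_mul (ε : ℝ) (hφ : ContDiff ℝ ∞ φ) (hψ : ContDiff ℝ ∞ ψ) (u : E3 → ℝ) (x : E3) :
    lop ε u (fun y => φ y * ψ y) x
      = φ x * lop ε u ψ x + ψ x * lop ε u φ x + 2 * aform ε u φ ψ x := by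
  simp only [lop, aform, LJ, aJ, Pv, Hv, pd2_mul hφ hψ, pd_mul hφ hψ, sum3]
  ring

lemma lop_add (ε : ℝ) (hφ : ContDiff ℝ ∞ φ) (hψ : ContDiff ℝ ∞ ψ) (u : E3 → ℝ) (x : E3) :
    lop ε u (fun y => φ y + ψ y) x = lop ε u φ x + lop ε u ψ x := by
  simp only [lop, LJ, Pv, Hv, pd2, pd_add hφ hψ, pd_add (contDiff_pd hφ _) (contDiff_pd hψ _), sum3]
  ring

lemma lop_const_mul (ε : ℝ) (hφ : ContDiff ℝ ∞ φ) (c : ℝ) (u : E3 → ℝ) (x : E3) :
    lop ε u (fun y => c * φ y) x = c * lop ε u φ x := by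
  simp only [lop, LJ, Pv, Hv, pd2, pd_const_mul hφ, pd_const_mul (contDiff_pd hφ _), sum3]
  ring

lemma lop_add_const (ε : ℝ) (φ : E3 → ℝ) (c : ℝ) (u : E3 → ℝ) (x : E3) :
    lop ε u (fun y => φ y + c) x = lop ε u φ x := by
  simp only [lop, LJ, Pv, Hv, pd2, pd_add_const]

lemma contDiff_res (ε : ℝ) (hu : ContDiff ℝ ∞ u) : ContDiff ℝ ∞ (res ε u) := by
  unfold res trH infLap pd2
  exact (contDiff_const.mul (ContDiff.sum fun i _ => contDiff_pd (contDiff_pd hu i) i)).add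
    (ContDiff.sum fun i _ => ContDiff.sum fun j _ =>
      ((contDiff_pd hu i).mul (contDiff_pd hu j)).mul (contDiff_pd (contDiff_pd hu j) i))

lemma res_eq_fJ (ε : ℝ) (u : E3 → ℝ) (x : E3) : res ε u x = fJ ε (Pv u x) (Hv u x) := by
  simp only [res, trH, infLap, fJ, trJ, qJ, Pv, Hv, pd2, sum3]
  ring

/-- The gradient components solve the linearised equation. -/
lemma lop_pd (ε : ℝ) (hu : ContDiff ℝ ∞ u) (k : Fin 3) (x : E3) :
    lop ε u (pd k u) x = pd k (res ε u) x := by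
  have hp := fun i => contDiff_pd hu i
  have hH := fun i j => contDiff_pd (hp j) i
  have e : res ε u = fun y => ε * (∑ i, pd i (pd i u) y)
      + ∑ i, ∑ j, pd i u y * pd j u y * pd i (pd j u) y := rfl
  have hT : ∀ i j : Fin 3, pd i (pd j (pd k u)) x = pd k (pd i (pd j u)) x := fun i j => by
    rw [pd_comm hu j k, pd_comm (hp j) i k]
  have hs : ∀ i j : Fin 3, pd i (pd j u) x = pd j (pd i u) x := fun i j => by rw [pd_comm hu]
  rw [e, pd_add (contDiff_const.mul (ContDiff.sum fun i _ => hH i i))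
    (ContDiff.sum fun i _ => ContDiff.sum fun j _ => ((hp i).mul (hp j)).mul (hH i j)),
    pd_const_mul (ContDiff.sum fun i _ => hH i i), pd_sum3 (fun i => hH i i),
    pd_sum3 (fun i => ContDiff.sum fun j _ => ((hp i).mul (hp j)).mul (hH i j))]
  simp only [pd_sum3 (fun j => ((hp _).mul (hp j)).mul (hH _ j)), pd_mul ((hp _).mul (hp _)) (hH _ _),
    pd_mul (hp _) (hp _)]
  simp only [lop, LJ, qJ, Pv, Hv, pd2, sum3, hT, hs k 0, hs k 1, hs k 2, hs 1 0, hs 2 0, hs 2 1]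
  ring

/-- the convex function of the gradient -/
noncomputable def gfun (α β : ℝ) (u : E3 → ℝ) (x : E3) : ℝ := gJ α β (Pv u x)

lemma contDiff_gfun (α β : ℝ) (hu : ContDiff ℝ ∞ u) : ContDiff ℝ ∞ (gfun α β u) := by
  unfold gfun gJ Pv
  exact (contDiff_const.mul (((ContDiff.sum fun i _ => (contDiff_pd hu i).pow 2).sub
    contDiff_const).div_const _)).add (contDiff_const.mul ((contDiff_pd hu 2).sub contDiff_const))

lemma gfun_eq (α β : ℝ) (u : E3 → ℝ) : gfun α β u =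
    fun y => (∑ j, α / 2 * (pd j u y * pd j u y)) + β * pd 2 u y + (-α / 2 - β) := by
  funext y; simp only [gfun, gJ, Pv, sum3]; ring

lemma pd_gfun (α β : ℝ) (hu : ContDiff ℝ ∞ u) (i : Fin 3) (x : E3) :
    pd i (gfun α β u) x = DgJ α β (Pv u x) (Hv u x) i := by
  have hp := fun j => contDiff_pd hu j
  rw [gfun_eq, pd_add_const, pd_add (ContDiff.sum fun j _ => contDiff_const.mul ((hp j).mul (hp j)))
    (contDiff_const.mul (hp 2)), pd_sum3 (fun j => contDiff_const.mul ((hp j).mul (hp j))),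
    pd_const_mul (hp 2)]
  simp only [pd_const_mul ((hp _).mul (hp _)), pd_mul (hp _) (hp _), DgJ, Pv, Hv, pd2, sum3, eJ,
    Fin.reduceEq, if_false, if_true]
  ring

lemma lop_gfun (ε α β : ℝ) (hu : ContDiff ℝ ∞ u) (x : E3) :
    lop ε u (gfun α β u) x
      = α * (∑ i, qJ (Pv u x) (Hv u x) i ^ 2 + ε * ∑ i, ∑ j, Hv u x i j ^ 2)
        + ∑ j, (α * pd j u x + β * eJ j) * pd j (res ε u) x := by
  have hp := fun j => contDiff_pd hu j
  have hs := Hv_symm hu x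
  have hj : ∀ j, ContDiff ℝ ∞ fun y => α / 2 * (pd j u y * pd j u y) := fun j =>
    contDiff_const.mul ((hp j).mul (hp j))
  have e : (fun y => ∑ j, α / 2 * (pd j u y * pd j u y))
      = fun y => α / 2 * (pd 0 u y * pd 0 u y) + α / 2 * (pd 1 u y * pd 1 u y)
        + α / 2 * (pd 2 u y * pd 2 u y) := by funext y; rw [sum3]
  rw [gfun_eq, lop_add_const, lop_add ε (ContDiff.sum fun j _ => hj j) (contDiff_const.mul (hp 2)),
    e, lop_add ε ((hj 0).add (hj 1)) (hj 2), lop_add ε (hj 0) (hj 1)]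
  simp only [lop_const_mul ε ((hp _).mul (hp _)), lop_const_mul ε (hp 2), lop_mul ε (hp _) (hp _),
    lop_pd ε hu]
  have hA : ∀ i j, pd i (pd j u) x = Hv u x i j := fun i j => rfl
  simp only [aform, aJ, qJ, Pv, sum3, eJ, hA, Fin.reduceEq, if_false, if_true, hs 1 0, hs 2 0,
    hs 2 1]
  ring

/-- the excess of `u` over the coordinate -/
def wfun (u : E3 → ℝ) (x : E3) : ℝ := u x - x 2

lemma contDiff_coord (i : Fin 3) : ContDiff ℝ ∞ fun y : E3 => y i :=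
  (EuclideanSpace.proj (𝕜 := ℝ) i).contDiff

lemma contDiff_wfun (hu : ContDiff ℝ ∞ u) : ContDiff ℝ ∞ (wfun u) := hu.sub (contDiff_coord 2)

lemma pd_wfun (hu : ContDiff ℝ ∞ u) (i : Fin 3) :
    pd i (wfun u) = fun x => pd i u x - eJ i := by
  funext x
  rw [pd, HasFDerivAt.fderiv (f := wfun u)
    ((diff_of hu x).hasFDerivAt.sub (EuclideanSpace.proj (𝕜 := ℝ) (2 : Fin 3)).hasFDerivAt)]
  simp [pd, eJ, Pi.single_apply, eq_comm]

lemma pd2_wfun (hu : ContDiff ℝ ∞ u) (i j : Fin 3) (x : E3) :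
    pd2 i j (wfun u) x = pd2 i j u x := by
  rw [pd2, pd_wfun hu, show (fun x => pd j u x - eJ j) = fun x => pd j u x + -eJ j by
    funext y; ring, pd_add_const, pd2]

lemma lop_wfun (ε : ℝ) (hu : ContDiff ℝ ∞ u) (x : E3) :
    lop ε u (wfun u) x = 3 * fJ ε (Pv u x) (Hv u x) - 2 * ε * trJ (Hv u x)
      - 2 * qJ (Pv u x) (Hv u x) 2 := by
  simp only [lop, LJ, fJ, trJ, qJ, Pv, Hv, pd_wfun hu, pd2_wfun hu, sum3, eJ, Fin.reduceEq,
    if_false, if_true]
  ring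

/-- the weight -/
noncomputable def mu (ε : ℝ) (u : E3 → ℝ) (x : E3) : ℝ := Real.exp (gsq u x / (2 * ε))

lemma contDiff_gsq (hu : ContDiff ℝ ∞ u) : ContDiff ℝ ∞ (gsq u) :=
  ContDiff.sum fun i _ => (contDiff_pd hu i).pow 2

lemma contDiff_mu (ε : ℝ) (hu : ContDiff ℝ ∞ u) : ContDiff ℝ ∞ (mu ε u) :=
  Real.contDiff_exp.comp ((contDiff_gsq hu).div_const _)

lemma pd_mu (ε : ℝ) (hu : ContDiff ℝ ∞ u) (i : Fin 3) (x : E3) :
    pd i (mu ε u) x = mu ε u x * (qJ (Pv u x) (Hv u x) i / ε) := by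
  have hp := fun j => contDiff_pd hu j
  have e : (fun y => gsq u y / (2 * ε)) = fun y => (2 * ε)⁻¹ * ∑ j, pd j u y * pd j u y := by
    funext y; simp only [gsq, sq]; ring
  have h := pd_comp (g := Real.exp) Real.contDiff_exp ((contDiff_gsq hu).div_const (2 * ε)) i
  unfold mu
  rw [h, e, pd_const_mul (ContDiff.sum fun j _ => (hp j).mul (hp j)),
    pd_sum3 fun j => (hp j).mul (hp j)]
  simp only [Real.deriv_exp, pd_mul (hp _) (hp _), qJ, Pv, Hv, pd2, sum3, gsq, sq]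
  ring_nf

/-- the flux -/
noncomputable def flux (ε : ℝ) (u φ : E3 → ℝ) (i : Fin 3) (x : E3) : ℝ :=
  mu ε u x * (ε * pd i φ x + pd i u x * ∑ j, pd j u x * pd j φ x)

lemma contDiff_flux (ε : ℝ) (hu : ContDiff ℝ ∞ u) (hφ : ContDiff ℝ ∞ φ) (i : Fin 3) :
    ContDiff ℝ ∞ (flux ε u φ i) :=
  (contDiff_mu ε hu).mul ((contDiff_const.mul (contDiff_pd hφ i)).add
    ((contDiff_pd hu i).mul (ContDiff.sum fun j _ => (contDiff_pd hu j).mul (contDiff_pd hφ j))))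

/-- `div(μ a Dφ) = μ (Lφ + f/ε · p·Dφ)` -/
lemma div_flux {ε : ℝ} (hε : ε ≠ 0) (hu : ContDiff ℝ ∞ u) (hφ : ContDiff ℝ ∞ φ) (x : E3) :
    ∑ i, pd i (flux ε u φ i) x
      = mu ε u x * (lop ε u φ x + res ε u x / ε * ∑ j, pd j u x * pd j φ x) := by
  have hp := fun j => contDiff_pd hu j
  have hq := fun j => contDiff_pd hφ j
  have hS : ContDiff ℝ ∞ fun y => ∑ j, pd j u y * pd j φ y :=
    ContDiff.sum fun j _ => (hp j).mul (hq j)
  unfold flux
  simp only [pd_mul (contDiff_mu ε hu) ((contDiff_const.mul (hq _)).add ((hp _).mul hS)),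
    pd_add (contDiff_const.mul (hq _)) ((hp _).mul hS), pd_const_mul (hq _), pd_mul (hp _) hS,
    pd_sum3 (fun j => (hp j).mul (hq j)), pd_mul (hp _) (hq _), pd_mu ε hu, res_eq_fJ]
  have hs := Hv_symm hu x
  have hA : ∀ i j, pd i (pd j u) x = Hv u x i j := fun i j => rfl
  simp only [lop, LJ, fJ, trJ, qJ, Pv, pd2, sum3, hA, hs 1 0, hs 2 0, hs 2 1]
  simp only [Hv, pd2]
  field_simp
  ring

end Vale.Agent.P080.C1.Bernstein
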