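import Vale.Agent.P080.C1.Iface
import Mathlib.Analysis.SpecialFunctions.SmoothTransition

/-!
# The anisotropic cutoff
-/

namespace Vale.Agent.P080.C1.Bernstein

open scoped ContDiff Topology RealInnerProductSpace
open Set Filter Metric

/-- weights of the three directions -/
noncomputable def sigma (lam : ℝ) (i : Fin 3) : ℝ := if i = 2 then 1 else Real.sqrt lam

lemma sigma_pos {lam : ℝ} (hlam : 0 < lam) (i : Fin 3) : 0 < sigma lam i := by
  rw [sigma]; split_ifs
  · exact one_pos
  · exact Real.sqrt_pos.2 hlam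

/-- profile: `1` up to `9/10`, `0` from `1` on -/
noncomputable def prof (r : ℝ) : ℝ := Real.smoothTransition (10 * (1 - r))

/-- the cutoff at `lam = 1` -/
noncomputable def cut1 (y : E3) : ℝ := prof ((y 2 / (69 / 100)) ^ 2) * prof (latSq y / 39 ^ 2)

/-- the scaling -/
noncomputable def scaleL (lam : ℝ) : E3 →L[ℝ] E3 :=
  ∑ i : Fin 3, (1 / sigma lam i) •
    ((EuclideanSpace.proj (𝕜 := ℝ) i).smulRight (EuclideanSpace.single i (1 : ℝ)))

/-- the cutoff -/
noncomputable def cut (lam : ℝ) (x : E3) : ℝ := cut1 (scaleL lam x)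

lemma scaleL_apply (lam : ℝ) (x : E3) (i : Fin 3) : scaleL lam x i = x i / sigma lam i := by
  fin_cases i <;>
    simp [scaleL, Fin.sum_univ_three, div_eq_inv_mul]

lemma scaleL_single (lam : ℝ) (i : Fin 3) :
    scaleL lam (EuclideanSpace.single i 1) = (1 / sigma lam i) • EuclideanSpace.single i (1 : ℝ) := by
  refine PiLp.ext fun j => ?_
  rw [scaleL_apply, PiLp.smul_apply, smul_eq_mul, PiLp.single_apply]
  split_ifs with h
  · subst h; ring
  · simp

lemma contDiff_prof : ContDiff ℝ ∞ prof :=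
  Real.smoothTransition.contDiff.comp (by fun_prop)

lemma contDiff_cut1 : ContDiff ℝ ∞ cut1 := by
  have h : ∀ i : Fin 3, ContDiff ℝ ∞ fun y : E3 => y i := fun i =>
    (EuclideanSpace.proj (𝕜 := ℝ) i).contDiff
  exact (contDiff_prof.comp (((h 2).div_const _).pow 2)).mul
    (contDiff_prof.comp ((((h 0).pow 2).add ((h 1).pow 2)).div_const _))

lemma cut1_compact : HasCompactSupport cut1 := by
  refine HasCompactSupport.of_support_subset_isCompact (isCompact_closedBall (0 : E3) 80) ?_
  intro y hy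
  rw [Function.mem_support, cut1] at hy
  have h2 := left_ne_zero_of_mul hy
  have hl := right_ne_zero_of_mul hy
  rw [prof, ne_eq, Real.smoothTransition.zero_iff_nonpos, not_le] at h2 hl
  rw [mem_closedBall, dist_zero_right]
  refine le_of_pow_le_pow_left₀ two_ne_zero (by norm_num) ?_
  rw [norm_sq_eq_lat]
  have a : (y 2) ^ 2 = (69 / 100) ^ 2 * (y 2 / (69 / 100)) ^ 2 := by ring
  have b : latSq y = 39 ^ 2 * (latSq y / 39 ^ 2) := by ring
  rw [a, b]
  nlinarith

lemma contDiff_cut (lam : ℝ) : ContDiff ℝ ∞ (cut lam) :=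
  contDiff_cut1.comp (scaleL lam).contDiff

lemma cut_nonneg (lam : ℝ) (x : E3) : 0 ≤ cut lam x :=
  mul_nonneg (Real.smoothTransition.nonneg _) (Real.smoothTransition.nonneg _)

lemma cut_le_one (lam : ℝ) (x : E3) : cut lam x ≤ 1 :=
  mul_le_one₀ (Real.smoothTransition.le_one _) (Real.smoothTransition.nonneg _)
    (Real.smoothTransition.le_one _)

lemma latSq_scaleL {lam : ℝ} (hlam : 0 < lam) (x : E3) : latSq (scaleL lam x) = latSq x / lam := by
  rw [latSq, latSq, scaleL_apply, scaleL_apply, sigma, sigma, if_neg (by decide), if_neg (by decide),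
    div_pow, div_pow, Real.sq_sqrt hlam.le, add_div]

lemma scaleL_two (lam : ℝ) (x : E3) : scaleL lam x 2 = x 2 := by
  rw [scaleL_apply, sigma, if_pos rfl, div_one]

/-- where the cutoff is supported -/
def sbox (lam : ℝ) : Set E3 := {x | |x 2| ≤ 69 / 100 ∧ lat x ≤ 39 * Real.sqrt lam}

/-- where it equals one -/
def obox (lam : ℝ) : Set E3 := {x | |x 2| ≤ 65 / 100 ∧ lat x ≤ 36 * Real.sqrt lam}

lemma isCompact_sbox {lam : ℝ} : IsCompact (sbox lam) := by
  refine Metric.isCompact_of_isClosed_isBounded ?_ ?_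
  · exact (isClosed_le ((EuclideanSpace.proj (𝕜 := ℝ) (2 : Fin 3)).continuous.abs) continuous_const).inter
      (isClosed_le continuous_lat continuous_const)
  · refine (isBounded_closedBall (x := (0 : E3)) (r := 1 + 39 * Real.sqrt lam)).subset ?_
    intro x hx
    rw [mem_closedBall, dist_zero_right]
    have h3 : ‖x‖ ≤ lat x + |x 2| := by
      refine le_of_pow_le_pow_left₀ two_ne_zero (add_nonneg (lat_nonneg x) (abs_nonneg _)) ?_
      rw [norm_sq_eq_lat, add_sq, lat, Real.sq_sqrt (latSq_nonneg x), sq_abs]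
      have := mul_nonneg (Real.sqrt_nonneg (latSq x)) (abs_nonneg (x 2))
      linarith
    linarith [hx.1, hx.2]

lemma sbox_subset_wbox {lam : ℝ} (hlam : 0 < lam) : sbox lam ⊆ wbox lam := fun x hx =>
  ⟨lt_of_le_of_lt hx.1 (by norm_num), lt_of_le_of_lt hx.2
    (mul_lt_mul_of_pos_right (by norm_num) (Real.sqrt_pos.2 hlam))⟩

lemma mem_sbox_of_cut {lam : ℝ} (hlam : 0 < lam) {x : E3} (hx : cut lam x ≠ 0) : x ∈ sbox lam := by
  rw [cut, cut1] at hx
  have h2 := left_ne_zero_of_mul hx
  have hl := right_ne_zero_of_mul hx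
  rw [prof, ne_eq, Real.smoothTransition.zero_iff_nonpos, not_le, scaleL_two] at h2
  rw [prof, ne_eq, Real.smoothTransition.zero_iff_nonpos, not_le, latSq_scaleL hlam] at hl
  refine ⟨?_, ?_⟩
  · refine abs_le_of_sq_le_sq ?_ (by norm_num)
    rw [show (x 2) ^ 2 = (69 / 100) ^ 2 * (x 2 / (69 / 100)) ^ 2 by ring]
    nlinarith
  · rw [lat, show 39 * Real.sqrt lam = Real.sqrt (39 ^ 2 * lam) by
      rw [Real.sqrt_mul (by norm_num), Real.sqrt_sq (by norm_num)]]
    refine Real.sqrt_le_sqrt ?_
    have h : latSq x / lam / 39 ^ 2 < 1 := by linarith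
    rw [div_div, div_lt_one (by positivity)] at h
    linarith

lemma cut_eq_zero {lam : ℝ} (hlam : 0 < lam) {x : E3} (hx : x ∉ sbox lam) : cut lam x = 0 := by
  by_contra h; exact hx (mem_sbox_of_cut hlam h)

lemma cut_eq_one {lam : ℝ} (hlam : 0 < lam) {x : E3} (hx : x ∈ obox lam) : cut lam x = 1 := by
  rw [cut, cut1, prof, prof, scaleL_two, latSq_scaleL hlam]
  have h1 : (x 2 / (69 / 100)) ^ 2 ≤ 9 / 10 := by
    have := pow_le_pow_left₀ (abs_nonneg _) hx.1 2
    rw [sq_abs] at this
    rw [div_pow, div_le_iff₀ (by norm_num)]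
    linarith
  have h2 : latSq x / lam / 39 ^ 2 ≤ 9 / 10 := by
    have := pow_le_pow_left₀ (lat_nonneg x) hx.2 2
    rw [lat, Real.sq_sqrt (latSq_nonneg x), mul_pow, Real.sq_sqrt hlam.le] at this
    rw [div_div, div_le_iff₀ (by positivity)]
    linarith
  rw [Real.smoothTransition.one_of_one_le (by linarith), Real.smoothTransition.one_of_one_le
    (by linarith), one_mul]

lemma pd_cut (lam : ℝ) (i : Fin 3) :
    pd i (cut lam) = fun x => 1 / sigma lam i * pd i cut1 (scaleL lam x) := by
  funext x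
  have h := ((contDiff_cut1.differentiable (by simp)) (scaleL lam x)).hasFDerivAt.comp x
    (scaleL lam).hasFDerivAt
  rw [pd, HasFDerivAt.fderiv (f := cut lam) h, ContinuousLinearMap.comp_apply, scaleL_single,
    map_smul, smul_eq_mul, pd]

lemma pd2_cut (lam : ℝ) (i j : Fin 3) :
    pd2 i j (cut lam) = fun x => 1 / sigma lam i * (1 / sigma lam j) * pd2 i j cut1 (scaleL lam x) := by
  funext x
  have hd : Differentiable ℝ (pd j cut1) :=
    ((contDiff_cut1.fderiv_right (m := 1) (WithTop.coe_le_coe.2 le_top)).clm_apply contDiff_const).differentiable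
      (by norm_num)
  have h := ((hd (scaleL lam x)).hasFDerivAt.comp x (scaleL lam).hasFDerivAt).const_mul
    (1 / sigma lam j)
  rw [pd2, pd_cut, pd, HasFDerivAt.fderiv (f := fun x => 1 / sigma lam j * pd j cut1 (scaleL lam x)) h]
  simp [scaleL_single, pd2, pd]
  ring

/-- derivative bounds, uniform in `lam` -/
lemma exists_cut_bound : ∃ Cz : ℝ, 1 ≤ Cz ∧ ∀ lam : ℝ, 0 < lam → ∀ (x : E3),
    (∀ i, |pd i (cut lam) x| * sigma lam i ≤ Cz) ∧
      ∀ i j, |pd2 i j (cut lam) x| * sigma lam i * sigma lam j ≤ Cz := by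
  have c1 : ∀ i, ∃ B, ∀ y, |pd i cut1 y| ≤ B := fun i => by
    obtain ⟨B, hB⟩ := ((cut1_compact.fderiv ℝ).exists_bound_of_continuous
      (contDiff_cut1.continuous_fderiv (by simp)))
    refine ⟨B, fun y => ?_⟩
    have := (fderiv ℝ cut1 y).le_opNorm (EuclideanSpace.single i 1)
    simp at this
    exact this.trans (hB y)
  have c2 : ∀ i j, ∃ B, ∀ y, |pd2 i j cut1 y| ≤ B := fun i j => by
    have hd : ContDiff ℝ 1 (pd j cut1) :=
      (contDiff_cut1.fderiv_right (m := 1) (WithTop.coe_le_coe.2 le_top)).clm_apply contDiff_const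
    have hc : HasCompactSupport (pd j cut1) := cut1_compact.fderiv_apply ℝ (EuclideanSpace.single j 1)
    obtain ⟨B, hB⟩ := ((hc.fderiv ℝ).exists_bound_of_continuous
      (hd.continuous_fderiv (by norm_num)))
    refine ⟨B, fun y => ?_⟩
    have := (fderiv ℝ (pd j cut1) y).le_opNorm (EuclideanSpace.single i 1)
    simp at this
    exact this.trans (hB y)
  choose B hB using c1
  choose B2 hB2 using c2
  refine ⟨1 + ∑ i, |B i| + ∑ i, ∑ j, |B2 i j|, ?_, fun lam hlam x => ⟨fun i => ?_, fun i j => ?_⟩⟩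
  · have := Finset.sum_nonneg (s := Finset.univ) fun i _ => abs_nonneg (B i)
    have := Finset.sum_nonneg (s := Finset.univ) fun i _ =>
      Finset.sum_nonneg (s := Finset.univ) fun j _ => abs_nonneg (B2 i j)
    linarith
  · have hs := sigma_pos hlam i
    rw [pd_cut, abs_mul, abs_of_pos (by positivity : 0 < 1 / sigma lam i)]
    have h1 := Finset.single_le_sum (f := fun i => |B i|) (fun i _ => abs_nonneg _) (Finset.mem_univ i)
    have := Finset.sum_nonneg (s := Finset.univ) fun i _ =>
      Finset.sum_nonneg (s := Finset.univ) fun j _ => abs_nonneg (B2 i j)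
    rw [show 1 / sigma lam i * |pd i cut1 (scaleL lam x)| * sigma lam i
      = |pd i cut1 (scaleL lam x)| by field_simp]
    linarith [hB i (scaleL lam x), le_abs_self (B i)]
  · have hs := sigma_pos hlam i
    have hs' := sigma_pos hlam j
    rw [pd2_cut, abs_mul, abs_of_pos (by positivity : 0 < 1 / sigma lam i * (1 / sigma lam j))]
    have h1 := Finset.single_le_sum (f := fun j => |B2 i j|) (fun i _ => abs_nonneg _) (Finset.mem_univ j)
    have h2 := Finset.single_le_sum (f := fun i => ∑ j, |B2 i j|)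
      (fun i _ => Finset.sum_nonneg fun j _ => abs_nonneg _) (Finset.mem_univ i)
    have := Finset.sum_nonneg (s := Finset.univ) fun i _ => abs_nonneg (B i)
    rw [show 1 / sigma lam i * (1 / sigma lam j) * |pd2 i j cut1 (scaleL lam x)| * sigma lam i
      * sigma lam j = |pd2 i j cut1 (scaleL lam x)| by field_simp]
    linarith [hB2 i j (scaleL lam x), le_abs_self (B2 i j)]

end Vale.Agent.P080.C1.Bernstein
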