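import Vale.Agent.P080.C1.Bernstein.Alg
import Mathlib.Algebra.BigOperators.Fin

/-!
# The Bernstein inequality for a second order jet
-/

namespace Vale.Agent.P080.C1.Bernstein

variable (ε α β : ℝ) (p : Fin 3 → ℝ) (H : Fin 3 → Fin 3 → ℝ)

/-- the vertical unit vector, componentwise -/
def eJ : Fin 3 → ℝ := fun i => if i = 2 then 1 else 0

/-- `q = H p` -/
def qJ (i : Fin 3) : ℝ := ∑ j, H i j * p j

/-- trace -/
def trJ : ℝ := ∑ i, H i i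

/-- the equation -/
def fJ : ℝ := ε * trJ H + ∑ i, p i * qJ p H i

/-- the coefficient form `ε φ·ψ + (p·φ)(p·ψ)` -/
def aJ (φ ψ : Fin 3 → ℝ) : ℝ := ε * (∑ i, φ i * ψ i) + (∑ i, p i * φ i) * ∑ i, p i * ψ i

/-- linearised operator on a function with derivatives `z`, `Z2` -/
def LJ (z : Fin 3 → ℝ) (Z2 : Fin 3 → Fin 3 → ℝ) : ℝ :=
  ε * (∑ i, Z2 i i) + (∑ i, ∑ j, p i * p j * Z2 i j) + 2 * ∑ i, qJ p H i * z i

/-- the convex function of the gradient -/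
noncomputable def gJ : ℝ := α * ((∑ i, p i ^ 2 - 1) / 2) + β * (p 2 - 1)

/-- its derivative along the solution -/
def DgJ (i : Fin 3) : ℝ := ∑ j, H i j * (α * p j + β * eJ j)

variable {ε α β p H}

lemma sum3 (f : Fin 3 → ℝ) : ∑ i, f i = f 0 + f 1 + f 2 := Fin.sum_univ_three f

lemma abs_add3 {a b c A B D : ℝ} (ha : |a| ≤ A) (hb : |b| ≤ B) (hc : |c| ≤ D) :
    |a + b + c| ≤ A + B + D :=
  (abs_add_le _ _).trans (add_le_add ((abs_add_le _ _).trans (add_le_add ha hb)) hc)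

lemma abs_mul_le {a b A B : ℝ} (ha : |a| ≤ A) (hb : |b| ≤ B) : |a * b| ≤ A * B := by
  rw [abs_mul]; exact mul_le_mul ha hb (abs_nonneg b) ((abs_nonneg a).trans ha)

/-- where `g > 0`, the excess `P = |p|² - p₂` controls everything -/
lemma geom {a b : ℝ} (hab : a = 1 ∧ b = 0 ∨ a = 2 ∧ b = -1 / 2) {p0 p1 p2 : ℝ}
    (hp2 : |p2 - 1| ≤ 1 / 16) (hg : 0 < a * ((p0 ^ 2 + p1 ^ 2 + p2 ^ 2 - 1) / 2) + b * (p2 - 1)) :
    p0 ^ 2 + p1 ^ 2 ≤ 4 * (p0 ^ 2 + p1 ^ 2 + p2 ^ 2 - p2) ∧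
      |p2 - 1| ≤ 4 * (p0 ^ 2 + p1 ^ 2 + p2 ^ 2 - p2) ∧
      a * ((p0 ^ 2 + p1 ^ 2 + p2 ^ 2 - 1) / 2) + b * (p2 - 1)
        ≤ 4 * (p0 ^ 2 + p1 ^ 2 + p2 ^ 2 - p2) := by
  obtain ⟨h1, h2⟩ := abs_le.1 hp2
  rcases hab with ⟨rfl, rfl⟩ | ⟨rfl, rfl⟩ <;> rcases le_total 1 p2 with h | h <;>
    refine ⟨?_, abs_le.2 ⟨?_, ?_⟩, ?_⟩ <;>
    nlinarith [sq_nonneg p0, sq_nonneg p1]

lemma bound_LJ {Cz L s Y : ℝ} {z : Fin 3 → ℝ} {Z2 : Fin 3 → Fin 3 → ℝ} (hCz : 1 ≤ Cz) (hY : 0 ≤ Y)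
    (hs0 : 0 < s) (hεZ2 : ∀ i, |ε * Z2 i i| ≤ Cz)
    (hpZp : ∀ i j, |p i * p j * Z2 i j| ≤ 4 * Cz * (1 + L) ^ 2)
    (hzq : |∑ i, qJ p H i * z i| ≤ 3 * (Cz * (Y / s))) :
    |LJ ε p H z Z2| ≤ 100 * Cz * ((1 + L ^ 2) + Y / s) := by
  have a : |ε * ∑ i, Z2 i i| ≤ 3 * Cz := by
    rw [sum3, mul_add, mul_add]; linarith [abs_add3 (hεZ2 0) (hεZ2 1) (hεZ2 2)]
  have b : |∑ i, ∑ j, p i * p j * Z2 i j| ≤ 36 * (Cz * (1 + L) ^ 2) := by
    rw [sum3, sum3, sum3, sum3]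
    linarith [abs_add3 (abs_add3 (hpZp 0 0) (hpZp 0 1) (hpZp 0 2))
      (abs_add3 (hpZp 1 0) (hpZp 1 1) (hpZp 1 2)) (abs_add3 (hpZp 2 0) (hpZp 2 1) (hpZp 2 2))]
  have c : |2 * ∑ i, qJ p H i * z i| ≤ 6 * (Cz * (Y / s)) := by
    rw [abs_mul, abs_two]; linarith
  have d : (1 + L) ^ 2 ≤ 2 * (1 + L ^ 2) := by linarith [sq_nonneg (1 - L)]
  have e := mul_le_mul_of_nonneg_left d (zero_le_one.trans hCz)
  have f1 : 0 ≤ Cz * L ^ 2 := by positivity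
  have f2 : 0 ≤ Cz * (Y / s) := by positivity
  rw [LJ]
  linarith [abs_add3 a b c]

lemma bound_aJ {Cz L s lam : ℝ} {z : Fin 3 → ℝ} (hs0 : 0 < s) (hs : s ^ 2 = lam) (hε0 : 0 ≤ ε)
    (hε : ε ≤ lam) (hzs : ∀ i, |z i| ≤ Cz / s)
    (hpzs : |∑ i, p i * z i| ≤ 6 * (Cz * (1 + L))) :
    |aJ ε p z z| ≤ 100 * Cz ^ 2 * (1 + L ^ 2) := by
  have a : |ε * ∑ i, z i * z i| ≤ 3 * Cz ^ 2 := by
    rw [abs_mul, abs_of_nonneg hε0]
    have h : |∑ i, z i * z i| ≤ 3 * (Cz / s * (Cz / s)) := by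
      rw [sum3]
      linarith [abs_add3 (abs_mul_le (hzs 0) (hzs 0)) (abs_mul_le (hzs 1) (hzs 1))
        (abs_mul_le (hzs 2) (hzs 2))]
    calc ε * |∑ i, z i * z i| ≤ s ^ 2 * (3 * (Cz / s * (Cz / s))) :=
          mul_le_mul (hε.trans_eq hs.symm) h (abs_nonneg _) (sq_nonneg s)
      _ = _ := by field_simp
  have b := abs_mul_le hpzs hpzs
  have d := mul_le_mul_of_nonneg_left
    (show (1 + L) ^ 2 ≤ 2 * (1 + L ^ 2) by linarith [sq_nonneg (1 - L)]) (sq_nonneg Cz)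
  have f1 : 0 ≤ Cz ^ 2 * L ^ 2 := by positivity
  have f2 : 0 ≤ Cz ^ 2 := sq_nonneg Cz
  rw [aJ]
  linarith [abs_add_le (ε * ∑ i, z i * z i) ((∑ i, p i * z i) * ∑ i, p i * z i)]

lemma bound_aDg {Cz L s N Y f : ℝ} {z : Fin 3 → ℝ} (hCz : 1 ≤ Cz) (hL : 0 ≤ L) (hs0 : 0 < s)
    (hε0 : 0 ≤ ε) (hY : 0 ≤ Y) (hN : 0 ≤ N) (hsym : ∀ i j, H i j = H j i)
    (hαβ : |α + β| ≤ 2 ∧ |-β| ≤ 1 ∧ |α| ≤ 2 ∧ |β| ≤ 1 ∧ 1 ≤ α)
    (hDg : ∀ i, DgJ α β p H i = (α + β) * qJ p H i + -β * ∑ j, H i j * (p j - eJ j))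
    (hzs : ∀ i, |z i| ≤ Cz / s) (hdi : ∀ i : Fin 3, |p i - eJ i| ≤ 2 * (s * L))
    (hqY : ∀ i, |qJ p H i| ≤ Y) (hHN : ∀ i j, |H i j| ≤ N)
    (hpzs : |∑ i, p i * z i| ≤ 6 * (Cz * (1 + L)))
    (hqp : |∑ i, p i * qJ p H i| ≤ |f| + 3 * (ε * N))
    (hq2 : |qJ p H 2| ≤ 2 * (|f| + 3 * (ε * N) + 4 * (s * (L * Y)))) :
    |aJ ε p z (DgJ α β p H)| ≤
      100 * Cz * (ε * (Y / s) + ε * (N * L) + (1 + L) * (|f| + ε * N + s * (L * Y))) := by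
  have hH : ∀ i, |∑ j, H i j * (p j - eJ j)| ≤ 6 * (N * (s * L)) := fun i => by
    rw [sum3]
    linarith [abs_add3 (abs_mul_le (hHN i 0) (hdi 0)) (abs_mul_le (hHN i 1) (hdi 1))
      (abs_mul_le (hHN i 2) (hdi 2))]
  have hDi : ∀ i, |z i * DgJ α β p H i| ≤ Cz / s * (2 * Y + 1 * (6 * (N * (s * L)))) := fun i => by
    rw [hDg i]
    exact abs_mul_le (hzs i) ((abs_add_le _ _).trans
      (add_le_add (abs_mul_le hαβ.1 (hqY i)) (abs_mul_le hαβ.2.1 (hH i))))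
  have a : |ε * ∑ i, z i * DgJ α β p H i| ≤ ε * (6 * (Cz * (Y / s)) + 18 * (Cz * (N * L))) := by
    rw [abs_mul, abs_of_nonneg hε0, sum3]
    refine mul_le_mul_of_nonneg_left ((abs_add3 (hDi 0) (hDi 1) (hDi 2)).trans_eq ?_) hε0
    field_simp
    ring
  have b : |∑ i, p i * DgJ α β p H i| ≤ 4 * (|f| + 3 * (ε * N) + 4 * (s * (L * Y))) := by
    rw [show ∑ i, p i * DgJ α β p H i = α * (∑ i, p i * qJ p H i)
        + β * (∑ i, p i * H i 2) by simp [DgJ, qJ, sum3, eJ]; ring]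
    have hb : |∑ i, p i * H i 2| ≤ 2 * (|f| + 3 * (ε * N) + 4 * (s * (L * Y))) := by
      refine le_of_eq_of_le (congrArg abs ?_) hq2
      rw [qJ]
      exact Finset.sum_congr rfl fun i _ => by rw [hsym i 2]; ring
    linarith [abs_add_le (α * ∑ i, p i * qJ p H i) (β * ∑ i, p i * H i 2),
      abs_mul_le hαβ.2.2.1 hqp, abs_mul_le hαβ.2.2.2.1 hb,
      show 0 ≤ s * (L * Y) by positivity, abs_nonneg f, mul_nonneg hε0 hN]
  have c := abs_mul_le hpzs b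
  rw [aJ]
  have f1 : 0 ≤ Cz * ((1 + L) * |f|) := by positivity
  have f2 : 0 ≤ Cz * ((1 + L) * (ε * N)) := by positivity
  have f3 : 0 ≤ Cz * ((1 + L) * (s * (L * Y))) := by positivity
  have f4 : 0 ≤ ε * (Cz * (Y / s)) := by positivity
  have f5 : 0 ≤ ε * (Cz * (N * L)) := by positivity
  linarith [abs_add_le (ε * ∑ i, z i * DgJ α β p H i)
    ((∑ i, p i * z i) * ∑ i, p i * DgJ α β p H i)]

lemma bound_azd {Cz L s lam P : ℝ} {z : Fin 3 → ℝ} (hCz : 1 ≤ Cz) (hL : 0 ≤ L) (hs0 : 0 < s)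
    (hlam : 0 < lam) (hε0 : 0 ≤ ε) (hε : ε ≤ lam) (hP0 : 0 ≤ P) (hPL : lam * L ^ 2 = P)
    (hdP : ∑ i, p i * (p i - eJ i) = P)
    (hzs : ∀ i, |z i| ≤ Cz / s) (hdi : ∀ i : Fin 3, |p i - eJ i| ≤ 2 * (s * L))
    (hpzs : |∑ i, p i * z i| ≤ 6 * (Cz * (1 + L))) :
    |aJ ε p z (fun i => p i - eJ i)| ≤
      10 * Cz * (lam * L + (1 + L) * (lam * L ^ 2)) := by
  have a : |ε * ∑ i, z i * (p i - eJ i)| ≤ lam * (6 * (Cz * L)) := by
    rw [abs_mul, abs_of_nonneg hε0, sum3]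
    refine mul_le_mul hε ((abs_add3 (abs_mul_le (hzs 0) (hdi 0)) (abs_mul_le (hzs 1) (hdi 1))
      (abs_mul_le (hzs 2) (hdi 2))).trans_eq ?_) (abs_nonneg _) hlam.le
    field_simp
    ring
  have b := abs_mul_le hpzs (abs_of_nonneg hP0).le
  rw [aJ]
  simp only [hdP]
  rw [hPL]
  have : 0 ≤ Cz * ((1 + L) * P) := by positivity
  have : 0 ≤ Cz * (lam * L) := by positivity
  linarith [abs_add_le (ε * ∑ i, z i * (p i - eJ i)) ((∑ i, p i * z i) * P)]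

lemma bound_Lw {L s N Y f : ℝ} (hL : 0 ≤ L) (hs0 : 0 < s) (hε0 : 0 ≤ ε) (hY : 0 ≤ Y) (hN : 0 ≤ N)
    (hT : |trJ H| ≤ 3 * N) (hq2 : |qJ p H 2| ≤ 2 * (|f| + 3 * (ε * N) + 4 * (s * (L * Y)))) :
    |3 * f - 2 * ε * trJ H - 2 * qJ p H 2| ≤ 20 * (|f| + ε * N + s * (L * Y)) := by
  have a : |3 * f| ≤ 3 * |f| := by rw [abs_mul, abs_of_pos (by norm_num : (0:ℝ) < 3)]
  have b : |-(2 * ε * trJ H)| ≤ 6 * (ε * N) := by
    rw [abs_neg, abs_mul, abs_of_nonneg (by positivity : 0 ≤ 2 * ε)]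
    linarith [mul_le_mul_of_nonneg_left hT hε0]
  have c : |-(2 * qJ p H 2)| ≤ 4 * (|f| + 3 * (ε * N) + 4 * (s * (L * Y))) := by
    rw [abs_neg, abs_mul, abs_two]; linarith
  rw [sub_eq_add_neg, sub_eq_add_neg]
  linarith [abs_add3 a b c, show 0 ≤ s * (L * Y) by positivity, mul_nonneg hε0 hN, abs_nonneg f]

/-- The pointwise inequality. -/
lemma jet {Cz K lam Z w : ℝ} {z : Fin 3 → ℝ} {Z2 : Fin 3 → Fin 3 → ℝ}
    (hab : α = 1 ∧ β = 0 ∨ α = 2 ∧ β = -1 / 2) (hsym : ∀ i j, H i j = H j i) (hCz : 1 ≤ Cz)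
    (hK : 20 * (100000 * Cz ^ 2) ^ 2 ≤ K) (hlam : 0 < lam) (hlam1 : lam ≤ 1)
    (hε0 : 0 ≤ ε) (hε : ε ≤ lam) (hp2 : |p 2 - 1| ≤ 1 / 16) (hpl : p 0 ^ 2 + p 1 ^ 2 ≤ 1 / 16)
    (hZ0 : 0 ≤ Z) (hZ1 : Z ≤ 1) (hw : |w| ≤ 3 * lam)
    (hz : ∀ i, |z i| * (if i = 2 then 1 else Real.sqrt lam) ≤ Cz)
    (hZ2 : ∀ i j, |Z2 i j| * (if i = 2 then 1 else Real.sqrt lam)
      * (if j = 2 then 1 else Real.sqrt lam) ≤ Cz)
    (hbig : (400 * (100000 * Cz ^ 2) ^ 2 * K + 4) * lam < Z ^ 6 * gJ α β p) :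
    lam ≤ Z ^ 6 * (α * (∑ i, qJ p H i ^ 2 + ε * ∑ i, ∑ j, H i j ^ 2))
        + gJ α β p * (6 * Z ^ 5 * LJ ε p H z Z2 + 30 * Z ^ 4 * aJ ε p z z)
        + 12 * Z ^ 5 * aJ ε p z (DgJ α β p H)
        + K / lam * (w ^ 2 * (4 * Z ^ 3 * LJ ε p H z Z2 + 12 * Z ^ 2 * aJ ε p z z)
          + 16 * Z ^ 3 * w * aJ ε p z (fun i => p i - eJ i)
          + 2 * Z ^ 4 * w * (3 * fJ ε p H - 2 * ε * trJ H - 2 * qJ p H 2)
          + 2 * Z ^ 4 * aJ ε p (fun i => p i - eJ i) (fun i => p i - eJ i))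
      + 100000 * Cz ^ 2 * K * (1 + 1 / Real.sqrt lam) * |fJ ε p H| := by
  set s := Real.sqrt lam with hs'
  have hs0 : 0 < s := Real.sqrt_pos.2 hlam
  have hs : s ^ 2 = lam := Real.sq_sqrt hlam.le
  have hs1 : s ≤ 1 := by nlinarith
  have hK0 : 0 ≤ K := le_trans (by positivity) hK
  have hg0 : 0 < gJ α β p := by
    by_contra h
    have : Z ^ 6 * gJ α β p ≤ 0 := mul_nonpos_of_nonneg_of_nonpos (by positivity) (not_lt.1 h)
    have : 0 ≤ (400 * (100000 * Cz ^ 2) ^ 2 * K + 4) * lam := by positivity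
    linarith
  have hgdef : gJ α β p = α * ((p 0 ^ 2 + p 1 ^ 2 + p 2 ^ 2 - 1) / 2) + β * (p 2 - 1) := by
    rw [gJ, sum3]
  obtain ⟨hm, hd2, hgP⟩ := geom hab hp2 (hgdef ▸ hg0)
  rw [← hgdef] at hgP
  set P := p 0 ^ 2 + p 1 ^ 2 + p 2 ^ 2 - p 2 with hP
  obtain ⟨hb1, hb2⟩ := abs_le.1 hp2
  have hP0 : 0 ≤ P := by linarith [sq_nonneg (p 0), sq_nonneg (p 1)]
  have hP1 : P ≤ 1 := by nlinarith
  set L := Real.sqrt P / s with hL'
  have hL : 0 ≤ L := by positivity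
  have hsL : s * L = Real.sqrt P := by rw [hL']; field_simp
  have hPL : lam * L ^ 2 = P := by rw [← hs, ← mul_pow, hsL, Real.sq_sqrt hP0]
  have hLs : L ≤ 1 / s := by
    rw [hL']; gcongr
    exact Real.sqrt_le_one.2 hP1
  have hlat : ∀ i : Fin 3, i ≠ 2 → |p i| ≤ 2 * (s * L) := by
    intro i hi
    refine abs_le_of_sq_le_sq ?_ (by positivity)
    rw [mul_pow, hsL, Real.sq_sqrt hP0]
    fin_cases i <;> first | exact absurd rfl hi | (simp; linarith [sq_nonneg (p 0), sq_nonneg (p 1)])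
  have hdi : ∀ i : Fin 3, |p i - eJ i| ≤ 2 * (s * L) := by
    intro i
    by_cases hi : i = 2
    · subst hi
      refine abs_le_of_sq_le_sq ?_ (by positivity)
      rw [mul_pow, hsL, Real.sq_sqrt hP0, show eJ 2 = 1 from if_pos rfl, ← sq_abs]
      calc |p 2 - 1| ^ 2 ≤ |p 2 - 1| * 1 := by
            rw [sq]; exact mul_le_mul_of_nonneg_left (by linarith) (abs_nonneg _)
        _ ≤ 2 ^ 2 * P := by linarith
    · simpa [eJ, hi] using hlat i hi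
  -- weights
  let σ : Fin 3 → ℝ := fun i => if i = 2 then 1 else s
  have hσ0 : ∀ i, 0 < σ i := fun i => by simp only [σ]; split_ifs <;> linarith
  have hσs : ∀ i, s ≤ σ i := fun i => by simp only [σ]; split_ifs <;> linarith
  have hpσ : ∀ i, |p i| ≤ 2 * (1 + L) * σ i := by
    intro i
    by_cases hi : i = 2
    · subst hi
      rw [show σ 2 = 1 from if_pos rfl, abs_of_pos (by linarith : 0 < p 2)]
      linarith
    · rw [show σ i = s from if_neg hi]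
      linarith [hlat i hi]
  have hz' : ∀ i, |z i| * σ i ≤ Cz := hz
  have hZ2' : ∀ i j, |Z2 i j| * σ i * σ j ≤ Cz := hZ2
  have hzs : ∀ i, |z i| ≤ Cz / s := fun i => by
    rw [le_div_iff₀ hs0]
    exact (mul_le_mul_of_nonneg_left (hσs i) (abs_nonneg _)).trans (hz' i)
  have hpz : ∀ i, |p i * z i| ≤ 2 * Cz * (1 + L) := fun i => by
    rw [abs_mul]
    calc |p i| * |z i| ≤ 2 * (1 + L) * σ i * |z i| := by gcongr; exact hpσ i
      _ = 2 * (1 + L) * (|z i| * σ i) := by ring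
      _ ≤ 2 * (1 + L) * Cz := by gcongr; exact hz' i
      _ = _ := by ring
  have hpZp : ∀ i j, |p i * p j * Z2 i j| ≤ 4 * Cz * (1 + L) ^ 2 := fun i j => by
    rw [abs_mul, abs_mul]
    calc |p i| * |p j| * |Z2 i j| ≤ 2 * (1 + L) * σ i * (2 * (1 + L) * σ j) * |Z2 i j| := by
          refine mul_le_mul_of_nonneg_right
            (mul_le_mul (hpσ i) (hpσ j) (abs_nonneg _) ?_) (abs_nonneg _)
          exact mul_nonneg (by positivity) (hσ0 i).le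
      _ = 4 * (1 + L) ^ 2 * (|Z2 i j| * σ i * σ j) := by ring
      _ ≤ 4 * (1 + L) ^ 2 * Cz := by gcongr; exact hZ2' i j
      _ = _ := by ring
  have hεZ2 : ∀ i, |ε * Z2 i i| ≤ Cz := fun i => by
    rw [abs_mul, abs_of_nonneg hε0]
    calc ε * |Z2 i i| ≤ σ i * σ i * |Z2 i i| := by
          gcongr
          calc ε ≤ s * s := by rw [← sq, hs]; exact hε
            _ ≤ σ i * σ i := mul_le_mul (hσs i) (hσs i) hs0.le (hσ0 i).le
      _ = |Z2 i i| * σ i * σ i := by ring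
      _ ≤ Cz := hZ2' i i
  set Y := Real.sqrt (∑ i, qJ p H i ^ 2) with hY'
  set N := Real.sqrt (∑ i, ∑ j, H i j ^ 2) with hN'
  have hY : 0 ≤ Y := Real.sqrt_nonneg _
  have hN : 0 ≤ N := Real.sqrt_nonneg _
  have hqY : ∀ i, |qJ p H i| ≤ Y := fun i => by
    rw [← Real.sqrt_sq_eq_abs]
    exact Real.sqrt_le_sqrt (Finset.single_le_sum (f := fun k => qJ p H k ^ 2)
      (fun k _ => sq_nonneg _) (Finset.mem_univ i))
  have hHN : ∀ i j, |H i j| ≤ N := fun i j => by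
    rw [← Real.sqrt_sq_eq_abs]
    refine Real.sqrt_le_sqrt ((Finset.single_le_sum (f := fun l => H i l ^ 2)
      (fun l _ => sq_nonneg _) (Finset.mem_univ j)).trans ?_)
    exact Finset.single_le_sum (f := fun k => ∑ l, H k l ^ 2)
      (fun k _ => Finset.sum_nonneg fun l _ => sq_nonneg _) (Finset.mem_univ i)
  set f := fJ ε p H with hf
  have hT : |trJ H| ≤ 3 * N := by
    rw [trJ, sum3]; linarith [abs_add3 (hHN 0 0) (hHN 1 1) (hHN 2 2)]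
  have hqp : |∑ i, p i * qJ p H i| ≤ |f| + 3 * (ε * N) := by
    rw [show ∑ i, p i * qJ p H i = f - ε * trJ H by rw [hf, fJ]; ring]
    refine (abs_sub _ _).trans (add_le_add le_rfl ?_)
    rw [abs_mul, abs_of_nonneg hε0]
    linarith [mul_le_mul_of_nonneg_left hT hε0]
  have hq2 : |qJ p H 2| ≤ 2 * (|f| + 3 * (ε * N) + 4 * (s * (L * Y))) := by
    have a := abs_mul_le (hlat 0 (by decide)) (hqY 0)
    have b := abs_mul_le (hlat 1 (by decide)) (hqY 1)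
    have c : |p 2 * qJ p H 2| ≤ |∑ i, p i * qJ p H i| + 2 * (s * L) * Y + 2 * (s * L) * Y := by
      rw [show p 2 * qJ p H 2 = (∑ i, p i * qJ p H i) + -(p 0 * qJ p H 0) + -(p 1 * qJ p H 1) by
        rw [sum3]; ring]
      exact abs_add3 le_rfl (by rwa [abs_neg]) (by rwa [abs_neg])
    rw [abs_mul, abs_of_pos (by linarith : 0 < p 2)] at c
    have : 1 / 2 * |qJ p H 2| ≤ p 2 * |qJ p H 2| :=
      mul_le_mul_of_nonneg_right (by linarith) (abs_nonneg _)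
    linarith
  have hzq : |∑ i, qJ p H i * z i| ≤ 3 * (Cz * (Y / s)) := by
    rw [sum3]
    linarith [abs_add3 (abs_mul_le (hqY 0) (hzs 0)) (abs_mul_le (hqY 1) (hzs 1))
      (abs_mul_le (hqY 2) (hzs 2)), show Y * (Cz / s) = Cz * (Y / s) from by ring]
  have hpzs : |∑ i, p i * z i| ≤ 6 * (Cz * (1 + L)) := by
    rw [sum3]; linarith [abs_add3 (hpz 0) (hpz 1) (hpz 2)]
  have hLz := bound_LJ (ε := ε) hCz hY hs0 hεZ2 hpZp hzq
  have hAz := bound_aJ (ε := ε) (p := p) hs0 hs hε0 hε hzs hpzs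
  have hdP : ∑ i, p i * (p i - eJ i) = P := by
    rw [sum3, hP]; simp [eJ]; ring
  have hDg : ∀ i, DgJ α β p H i = (α + β) * qJ p H i + -β * ∑ j, H i j * (p j - eJ j) := fun i => by
    simp only [DgJ, qJ, sum3]; ring
  have hαβ : |α + β| ≤ 2 ∧ |-β| ≤ 1 ∧ |α| ≤ 2 ∧ |β| ≤ 1 ∧ 1 ≤ α := by
    rcases hab with ⟨rfl, rfl⟩ | ⟨rfl, rfl⟩ <;> norm_num
  have hzDg := bound_aDg hCz hL hs0 hε0 hY hN hsym hαβ hDg hzs hdi hqY hHN hpzs hqp hq2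
  have hzd := bound_azd hCz hL hs0 hlam hε0 hε hP0 hPL hdP hzs hdi hpzs
  have hLw := bound_Lw hL hs0 hε0 hY hN hT hq2
  have hdd : (lam * L ^ 2) ^ 2 ≤ aJ ε p (fun i => p i - eJ i) (fun i => p i - eJ i) := by
    rw [aJ, hPL]
    simp only [hdP]
    have : 0 ≤ ε * ∑ i, (p i - eJ i) * (p i - eJ i) :=
      mul_nonneg hε0 (Finset.sum_nonneg fun i _ => mul_self_nonneg _)
    linarith [sq P]
  have hG : Y ^ 2 + ε * N ^ 2 ≤ α * (∑ i, qJ p H i ^ 2 + ε * ∑ i, ∑ j, H i j ^ 2) := by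
    rw [hY', hN', Real.sq_sqrt (Finset.sum_nonneg fun i _ => sq_nonneg _),
      Real.sq_sqrt (Finset.sum_nonneg fun i _ => Finset.sum_nonneg fun j _ => sq_nonneg _)]
    exact le_mul_of_one_le_left (add_nonneg (Finset.sum_nonneg fun i _ => sq_nonneg _)
      (mul_nonneg hε0 (Finset.sum_nonneg fun i _ => Finset.sum_nonneg fun j _ => sq_nonneg _)))
      hαβ.2.2.2.2
  have hM : 100 * (100000 * Cz ^ 2) ^ 2 * K + 1 ≤ Z ^ 6 * L ^ 2 := by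
    have h1 : Z ^ 6 * gJ α β p ≤ Z ^ 6 * (4 * P) := mul_le_mul_of_nonneg_left hgP (by positivity)
    rw [← hPL] at h1
    refine le_of_mul_le_mul_left (a := 4 * lam) ?_ (by positivity)
    linarith
  refine (combine (Cz := Cz) hCz hK hZ0 hZ1 hL hs0 hs hε0 hε hY hN hg0.le
    (by rw [mul_assoc, hPL]; exact hgP) hw hLz hAz hzDg hzd hLw hdd hG hM).trans ?_
  gcongr

end Vale.Agent.P080.C1.Bernstein
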