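import Vale.Agent.P080.C1.Bernstein.Calc
import Vale.Agent.P080.C1.Bernstein.Cut

/-!
# The test function and the pointwise inequality
-/

namespace Vale.Agent.P080.C1.Bernstein

open scoped ContDiff Topology RealInnerProductSpace
open Set Filter MeasureTheory

variable {u : E3 → ℝ}

/-- `ζ²` -/
noncomputable def Z2f (lam : ℝ) (x : E3) : ℝ := cut lam x * cut lam x
/-- `ζ⁴` -/
noncomputable def Z4f (lam : ℝ) (x : E3) : ℝ := Z2f lam x * Z2f lam x
/-- `ζ⁶` -/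
noncomputable def Z6f (lam : ℝ) (x : E3) : ℝ := Z2f lam x * Z4f lam x

/-- the test function -/
noncomputable def Phi (K lam α β : ℝ) (u : E3 → ℝ) (x : E3) : ℝ :=
  Z6f lam x * gfun α β u x + K / lam * (Z4f lam x * (wfun u x * wfun u x))

lemma contDiff_Z2f (lam : ℝ) : ContDiff ℝ ∞ (Z2f lam) := (contDiff_cut lam).mul (contDiff_cut lam)
lemma contDiff_Z4f (lam : ℝ) : ContDiff ℝ ∞ (Z4f lam) := (contDiff_Z2f lam).mul (contDiff_Z2f lam)
lemma contDiff_Z6f (lam : ℝ) : ContDiff ℝ ∞ (Z6f lam) := (contDiff_Z2f lam).mul (contDiff_Z4f lam)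

lemma pd_Z2f (lam : ℝ) (i : Fin 3) (x : E3) :
    pd i (Z2f lam) x = 2 * cut lam x * pd i (cut lam) x := by
  rw [show Z2f lam = fun y => cut lam y * cut lam y from rfl,
    pd_mul (contDiff_cut lam) (contDiff_cut lam)]
  ring

lemma pd_Z4f (lam : ℝ) (i : Fin 3) (x : E3) :
    pd i (Z4f lam) x = 4 * cut lam x ^ 3 * pd i (cut lam) x := by
  rw [show Z4f lam = fun y => Z2f lam y * Z2f lam y from rfl,
    pd_mul (contDiff_Z2f lam) (contDiff_Z2f lam)]
  simp only [pd_Z2f]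
  simp only [Z2f]
  ring

lemma pd_Z6f (lam : ℝ) (i : Fin 3) (x : E3) :
    pd i (Z6f lam) x = 6 * cut lam x ^ 5 * pd i (cut lam) x := by
  rw [show Z6f lam = fun y => Z2f lam y * Z4f lam y from rfl,
    pd_mul (contDiff_Z2f lam) (contDiff_Z4f lam)]
  simp only [pd_Z2f, pd_Z4f]
  simp only [Z4f, Z2f]
  ring

lemma contDiff_Phi (K lam α β : ℝ) (hu : ContDiff ℝ ∞ u) : ContDiff ℝ ∞ (Phi K lam α β u) :=
  ((contDiff_Z6f lam).mul (contDiff_gfun α β hu)).add (contDiff_const.mul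
    ((contDiff_Z4f lam).mul ((contDiff_wfun hu).mul (contDiff_wfun hu))))

lemma pd_Phi (K lam α β : ℝ) (hu : ContDiff ℝ ∞ u) (i : Fin 3) (x : E3) :
    pd i (Phi K lam α β u) x = 6 * cut lam x ^ 5 * pd i (cut lam) x * gfun α β u x
      + cut lam x ^ 6 * DgJ α β (Pv u x) (Hv u x) i
      + K / lam * (4 * cut lam x ^ 3 * pd i (cut lam) x * wfun u x ^ 2
        + 2 * cut lam x ^ 4 * wfun u x * (pd i u x - eJ i)) := by
  have hw := contDiff_wfun hu
  have h4 := contDiff_Z4f lam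
  unfold Phi
  rw [pd_add ((contDiff_Z6f lam).mul (contDiff_gfun α β hu))
    (contDiff_const.mul (h4.mul (hw.mul hw))), pd_mul (contDiff_Z6f lam) (contDiff_gfun α β hu),
    pd_const_mul (h4.mul (hw.mul hw)), pd_mul h4 (hw.mul hw), pd_mul hw hw]
  simp only [pd_Z4f, pd_Z6f, pd_gfun α β hu, pd_wfun hu]
  simp only [Z6f, Z4f, Z2f]
  ring

lemma aform_smul_left (ε : ℝ) (φ ψ θ : E3 → ℝ) (c : ℝ) (x : E3)
    (h : ∀ i, pd i φ x = c * pd i θ x) : aform ε u φ ψ x = c * aform ε u θ ψ x := by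
  simp only [aform, aJ, Pv, h, sum3]
  ring

lemma aform_smul_right (ε : ℝ) (φ ψ θ : E3 → ℝ) (c : ℝ) (x : E3)
    (h : ∀ i, pd i ψ x = c * pd i θ x) : aform ε u φ ψ x = c * aform ε u φ θ x := by
  simp only [aform, aJ, Pv, h, sum3]
  ring

lemma lop_Phi (ε K lam α β : ℝ) (hu : ContDiff ℝ ∞ u) (x : E3) :
    lop ε u (Phi K lam α β u) x
      - cut lam x ^ 6 * ∑ j, (α * pd j u x + β * eJ j) * pd j (res ε u) x
    = cut lam x ^ 6 * (α * (∑ i, qJ (Pv u x) (Hv u x) i ^ 2 + ε * ∑ i, ∑ j, Hv u x i j ^ 2))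
      + gJ α β (Pv u x) * (6 * cut lam x ^ 5 * LJ ε (Pv u x) (Hv u x) (Pv (cut lam) x) (Hv (cut lam) x)
        + 30 * cut lam x ^ 4 * aJ ε (Pv u x) (Pv (cut lam) x) (Pv (cut lam) x))
      + 12 * cut lam x ^ 5 * aJ ε (Pv u x) (Pv (cut lam) x) (DgJ α β (Pv u x) (Hv u x))
      + K / lam * (wfun u x ^ 2 *
          (4 * cut lam x ^ 3 * LJ ε (Pv u x) (Hv u x) (Pv (cut lam) x) (Hv (cut lam) x)
            + 12 * cut lam x ^ 2 * aJ ε (Pv u x) (Pv (cut lam) x) (Pv (cut lam) x))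
        + 16 * cut lam x ^ 3 * wfun u x * aJ ε (Pv u x) (Pv (cut lam) x) (fun i => Pv u x i - eJ i)
        + 2 * cut lam x ^ 4 * wfun u x * (3 * fJ ε (Pv u x) (Hv u x) - 2 * ε * trJ (Hv u x)
            - 2 * qJ (Pv u x) (Hv u x) 2)
        + 2 * cut lam x ^ 4 * aJ ε (Pv u x) (fun i => Pv u x i - eJ i) (fun i => Pv u x i - eJ i)) := by
  have hc := contDiff_cut lam
  have h2 := contDiff_Z2f lam
  have h4 := contDiff_Z4f lam
  have hw := contDiff_wfun hu
  have l2 : lop ε u (Z2f lam) x = 2 * cut lam x * lop ε u (cut lam) x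
      + 2 * aform ε u (cut lam) (cut lam) x := by
    unfold Z2f; rw [lop_mul ε hc hc]; ring
  have d2 : ∀ i, pd i (Z2f lam) x = 2 * cut lam x * pd i (cut lam) x := fun i => by
    unfold Z2f; rw [pd_mul hc hc]; ring
  have a22 : aform ε u (Z2f lam) (Z2f lam) x
      = 4 * cut lam x ^ 2 * aform ε u (cut lam) (cut lam) x := by
    rw [aform_smul_left ε _ _ _ _ x d2, aform_smul_right ε _ _ _ _ x d2]; ring
  have l4 : lop ε u (Z4f lam) x = 4 * cut lam x ^ 3 * lop ε u (cut lam) x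
      + 12 * cut lam x ^ 2 * aform ε u (cut lam) (cut lam) x := by
    unfold Z4f; rw [lop_mul ε h2 h2, l2, a22]; unfold Z2f; ring
  have a24 : aform ε u (Z2f lam) (Z4f lam) x
      = 8 * cut lam x ^ 4 * aform ε u (cut lam) (cut lam) x := by
    rw [aform_smul_left ε _ _ _ _ x d2, aform_smul_right ε _ _ _ _ x (fun i => pd_Z4f lam i x)]; ring
  have l6 : lop ε u (Z6f lam) x = 6 * cut lam x ^ 5 * lop ε u (cut lam) x
      + 30 * cut lam x ^ 4 * aform ε u (cut lam) (cut lam) x := by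
    unfold Z6f; rw [lop_mul ε h2 h4, l2, l4, a24]; unfold Z4f Z2f; ring
  have lw : lop ε u (fun y => wfun u y * wfun u y) x
      = 2 * wfun u x * lop ε u (wfun u) x + 2 * aform ε u (wfun u) (wfun u) x := by
    rw [lop_mul ε hw hw]; ring
  have dw : ∀ i, pd i (fun y => wfun u y * wfun u y) x = 2 * wfun u x * pd i (wfun u) x := fun i => by
    rw [pd_mul hw hw]; ring
  unfold Phi
  rw [lop_add ε ((contDiff_Z6f lam).mul (contDiff_gfun α β hu))
      (contDiff_const.mul (h4.mul (hw.mul hw))),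
    lop_mul ε (contDiff_Z6f lam) (contDiff_gfun α β hu), lop_const_mul ε (h4.mul (hw.mul hw)),
    lop_mul ε h4 (hw.mul hw), l6, l4, lw, lop_gfun ε α β hu, lop_wfun ε hu,
    aform_smul_left ε _ _ _ _ x (fun i => pd_Z6f lam i x),
    aform_smul_left ε _ _ _ _ x (fun i => pd_Z4f lam i x), aform_smul_right ε _ _ _ _ x dw]
  have ew : Pv (wfun u) x = fun i => Pv u x i - eJ i := by
    funext i; rw [Pv, pd_wfun hu]; rfl
  have eg : Pv (gfun α β u) x = DgJ α β (Pv u x) (Hv u x) := funext fun i => pd_gfun α β hu i x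
  simp only [lop, aform, ew, eg, gfun, Z6f, Z4f, Z2f]
  ring

lemma Phi_eq_zero {K lam α β : ℝ} (hlam : 0 < lam) {x : E3} (hx : x ∉ sbox lam) :
    Phi K lam α β u x = 0 := by
  simp [Phi, Z6f, Z4f, Z2f, cut_eq_zero hlam hx]

/-- pointwise inequality for a good jet -/
lemma pointwise {Cz K lam ε α β : ℝ} (hab : α = 1 ∧ β = 0 ∨ α = 2 ∧ β = -1 / 2) (hCz : 1 ≤ Cz)
    (hcut : ∀ x, (∀ i, |pd i (cut lam) x| * sigma lam i ≤ Cz) ∧
      ∀ i j, |pd2 i j (cut lam) x| * sigma lam i * sigma lam j ≤ Cz)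
    (hK : 20 * (100000 * Cz ^ 2) ^ 2 ≤ K) (hlam : 0 < lam) (hlam1 : lam ≤ 1) (hε0 : 0 ≤ ε)
    (hε : ε ≤ lam) (hu : ContDiff ℝ ∞ u) {x : E3} (hp2 : |pd 2 u x - 1| ≤ 1 / 16)
    (hpl : pLatSq u x ≤ 1 / 16) (hw : |wfun u x| ≤ 3 * lam)
    (hbig : (9 * K + 400 * (100000 * Cz ^ 2) ^ 2 * K + 4) * lam < Phi K lam α β u x) :
    lam ≤ lop ε u (Phi K lam α β u) x
        - cut lam x ^ 6 * ∑ j, (α * pd j u x + β * eJ j) * pd j (res ε u) x
        + 100000 * Cz ^ 2 * K * (1 + 1 / Real.sqrt lam) * |res ε u x| := by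
  have hZ0 := cut_nonneg lam x
  have hZ1 := cut_le_one lam x
  have hK0 : 0 ≤ K := le_trans (by positivity) hK
  have hb : (400 * (100000 * Cz ^ 2) ^ 2 * K + 4) * lam < cut lam x ^ 6 * gJ α β (Pv u x) := by
    have h1 : K / lam * (Z4f lam x * (wfun u x * wfun u x)) ≤ 9 * K * lam := by
      calc K / lam * (Z4f lam x * (wfun u x * wfun u x))
          ≤ K / lam * (1 * (3 * lam * (3 * lam))) := by
            refine mul_le_mul_of_nonneg_left (mul_le_mul ?_ ?_ (mul_self_nonneg _) one_pos.le)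
              (by positivity)
            · exact mul_le_one₀ (mul_le_one₀ hZ1 hZ0 hZ1) (mul_nonneg hZ0 hZ0) (mul_le_one₀ hZ1 hZ0 hZ1)
            · rw [← abs_mul_abs_self (wfun u x)]
              exact mul_le_mul hw hw (abs_nonneg _) (by positivity)
        _ = 9 * K * lam := by field_simp; ring
    have h2 : Phi K lam α β u x = cut lam x ^ 6 * gJ α β (Pv u x)
        + K / lam * (Z4f lam x * (wfun u x * wfun u x)) := by
      simp only [Phi, gfun, Z6f, Z4f, Z2f]; ring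
    linarith
  rw [lop_Phi ε K lam α β hu x, res_eq_fJ]
  exact jet hab (Hv_symm hu x) hCz hK hlam hlam1 hε0 hε hp2 hpl hZ0 hZ1 hw
    (fun i => (hcut x).1 i) (fun i j => (hcut x).2 i j) hb

end Vale.Agent.P080.C1.Bernstein
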