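import Vale.Agent.P080.C1.Bernstein.Phi
import Vale.Agent.P080.C1.Approx.Parts

/-!
# The weighted weak maximum principle
-/

namespace Vale.Agent.P080.C1.Bernstein

open scoped ContDiff Topology RealInnerProductSpace NNReal
open Set Filter MeasureTheory

variable {u : E3 → ℝ}

lemma integral_pd_eq_zero {F : E3 → ℝ} (hF : ContDiff ℝ ∞ F) (hc : HasCompactSupport F) (i : Fin 3) :
    ∫ x, pd i F x = 0 := by
  have h1 : ContDiff ℝ 1 F := hF.of_le (WithTop.coe_le_coe.2 le_top)
  obtain ⟨L, hL⟩ : ∃ L, LipschitzWith L F :=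
    ⟨_, (h1.lipschitzWith_of_hasCompactSupport hc (by norm_num)).choose_spec⟩
  have := Approx.integral_mul_pd hL hc (contDiff_const (c := (1 : ℝ))) i
  simpa [pd] using this

lemma deriv_transition_nonneg (s : ℝ) : 0 ≤ deriv Real.smoothTransition s :=
  Real.smoothTransition.monotone.deriv_nonneg

/-- test weight -/
noncomputable def psi (K lam α β k : ℝ) (u : E3 → ℝ) (x : E3) : ℝ :=
  Real.smoothTransition (Phi K lam α β u x - k)

lemma contDiff_psi (K lam α β k : ℝ) (hu : ContDiff ℝ ∞ u) : ContDiff ℝ ∞ (psi K lam α β k u) :=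
  Real.smoothTransition.contDiff.comp ((contDiff_Phi K lam α β hu).sub contDiff_const)

lemma pd_psi (K lam α β k : ℝ) (hu : ContDiff ℝ ∞ u) (i : Fin 3) :
    pd i (psi K lam α β k u) = fun x =>
      deriv Real.smoothTransition (Phi K lam α β u x - k) * pd i (Phi K lam α β u) x := by
  have h := pd_comp (g := Real.smoothTransition) Real.smoothTransition.contDiff
    ((contDiff_Phi K lam α β hu).sub (contDiff_const (c := k))) i
  unfold psi
  rw [h]
  funext x
  rw [show (fun y => Phi K lam α β u y - k) = fun y => Phi K lam α β u y + -k from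
    funext fun y => sub_eq_add_neg _ _, pd_add_const]

lemma psi_eq_zero {K lam α β k : ℝ} (hlam : 0 < lam) (hk : 0 ≤ k) {x : E3} (hx : x ∉ sbox lam) :
    psi K lam α β k u x = 0 := by
  rw [psi, Phi_eq_zero hlam hx]
  exact Real.smoothTransition.zero_of_nonpos (by linarith)

lemma psi_compact {K lam α β k : ℝ} (hlam : 0 < lam) (hk : 0 ≤ k) :
    HasCompactSupport (psi K lam α β k u) :=
  HasCompactSupport.of_support_subset_isCompact isCompact_sbox fun _ hx =>
    by_contra fun h => hx (psi_eq_zero hlam hk h)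

/-- the field tested against the residual -/
noncomputable def fld (K lam α β k ε : ℝ) (u : E3 → ℝ) (j : Fin 3) (x : E3) : ℝ :=
  psi K lam α β k u x * (mu ε u x * (Z6f lam x * (α * pd j u x + β * eJ j)))

lemma contDiff_fld (K lam α β k ε : ℝ) (hu : ContDiff ℝ ∞ u) (j : Fin 3) :
    ContDiff ℝ ∞ (fld K lam α β k ε u j) :=
  (contDiff_psi K lam α β k hu).mul ((contDiff_mu ε hu).mul ((contDiff_Z6f lam).mul
    ((contDiff_const.mul (contDiff_pd hu j)).add contDiff_const)))

lemma pd_fld (K lam α β k ε : ℝ) (hu : ContDiff ℝ ∞ u) (j : Fin 3) (x : E3) :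
    pd j (fld K lam α β k ε u j) x =
      deriv Real.smoothTransition (Phi K lam α β u x - k) * pd j (Phi K lam α β u) x
          * mu ε u x * cut lam x ^ 6 * (α * pd j u x + β * eJ j)
        + psi K lam α β k u x * mu ε u x * (qJ (Pv u x) (Hv u x) j / ε
            * cut lam x ^ 6 * (α * pd j u x + β * eJ j)
          + 6 * cut lam x ^ 5 * pd j (cut lam) x * (α * pd j u x + β * eJ j)
          + cut lam x ^ 6 * (α * Hv u x j j)) := by
  have hg : ContDiff ℝ ∞ fun y => α * pd j u y + β * eJ j :=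
    (contDiff_const.mul (contDiff_pd hu j)).add contDiff_const
  have hz := contDiff_Z6f lam
  unfold fld
  rw [pd_mul (contDiff_psi K lam α β k hu) ((contDiff_mu ε hu).mul (hz.mul hg)),
    pd_mul (contDiff_mu ε hu) (hz.mul hg), pd_mul hz hg, pd_psi K lam α β k hu, pd_add_const,
    pd_const_mul (contDiff_pd hu j)]
  simp only [pd_Z6f, pd_mu ε hu, Hv, pd2]
  simp only [Z6f, Z4f, Z2f]
  ring

/-- the quantity controlled by `L²` norms -/
noncomputable def err (K lam α β k ε c : ℝ) (u : E3 → ℝ) (x : E3) : ℝ :=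
  |∑ j, pd j (fld K lam α β k ε u j) x|
    + psi K lam α β k u x * (mu ε u x * (c + |∑ j, pd j u x * pd j (Phi K lam α β u) x| / ε))

/-- the weak maximum principle -/
lemma weak {Cz K lam ε α β k : ℝ} (hab : α = 1 ∧ β = 0 ∨ α = 2 ∧ β = -1 / 2) (hCz : 1 ≤ Cz)
    (hcut : ∀ x, (∀ i, |pd i (cut lam) x| * sigma lam i ≤ Cz) ∧
      ∀ i j, |pd2 i j (cut lam) x| * sigma lam i * sigma lam j ≤ Cz)
    (hK : 20 * (100000 * Cz ^ 2) ^ 2 ≤ K) (hlam : 0 < lam) (hlam1 : lam ≤ 1) (hε0 : 0 < ε)
    (hε : ε ≤ lam) (hk : k = (9 * K + 400 * (100000 * Cz ^ 2) ^ 2 * K + 4) * lam)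
    (hu : ContDiff ℝ ∞ u)
    (hgood : ∀ x ∈ sbox lam,
      |pd 2 u x - 1| ≤ 1 / 16 ∧ pLatSq u x ≤ 1 / 16 ∧ |wfun u x| ≤ 3 * lam) :
    Integrable (psi K lam α β k u) ∧
      lam * ∫ x, psi K lam α β k u x ≤
        ∫ x, |res ε u x| * err K lam α β k ε (100000 * Cz ^ 2 * K * (1 + 1 / Real.sqrt lam)) u x := by
  set c := 100000 * Cz ^ 2 * K * (1 + 1 / Real.sqrt lam)
  have hK0 : 0 ≤ K := le_trans (by positivity) hK
  have hk0 : 0 ≤ k := by rw [hk]; positivity
  set Φ := Phi K lam α β u
  set ψ := psi K lam α β k u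
  have hΦ : ContDiff ℝ ∞ Φ := contDiff_Phi K lam α β hu
  have hψ : ContDiff ℝ ∞ ψ := contDiff_psi K lam α β k hu
  have hψc : HasCompactSupport ψ := psi_compact hlam hk0
  have hfl := contDiff_flux ε hu hΦ
  have hres := contDiff_res ε hu
  have hfd := contDiff_fld K lam α β k ε hu
  have hfdc : ∀ j, HasCompactSupport (fld K lam α β k ε u j) := fun j => hψc.mul_right
  -- the two divergences
  have i1 : ∀ i, ∫ x, pd i (fun y => ψ y * flux ε u Φ i y) x = 0 := fun i =>
    integral_pd_eq_zero (hψ.mul (hfl i)) hψc.mul_right i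
  have i2 : ∀ j, ∫ x, pd j (fun y => res ε u y * fld K lam α β k ε u j y) x = 0 := fun j =>
    integral_pd_eq_zero (hres.mul (hfd j)) (hfdc j).mul_left j
  have int1 : ∀ i, Integrable fun x => pd i (fun y => ψ y * flux ε u Φ i y) x := fun i =>
    (contDiff_pd (hψ.mul (hfl i)) i).continuous.integrable_of_hasCompactSupport
      (hψc.mul_right.fderiv_apply ℝ _)
  have int2 : ∀ j, Integrable fun x => pd j (fun y => res ε u y * fld K lam α β k ε u j y) x :=
    fun j => (contDiff_pd (hres.mul (hfd j)) j).continuous.integrable_of_hasCompactSupport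
      ((hfdc j).mul_left.fderiv_apply ℝ _)
  have hψi : Integrable ψ := hψ.continuous.integrable_of_hasCompactSupport hψc
  refine ⟨hψi, ?_⟩
  have hint : Integrable fun x => |res ε u x| * err K lam α β k ε c u x := by
    refine Continuous.integrable_of_hasCompactSupport
      (hres.continuous.abs.mul (((continuous_finsetSum _ fun j _ =>
        (contDiff_pd (hfd j) j).continuous).abs).add (hψ.continuous.mul ((contDiff_mu ε hu).continuous.mul
          (continuous_const.add (((continuous_finsetSum _ fun j _ =>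
            (contDiff_pd hu j).continuous.mul (contDiff_pd hΦ j).continuous)).abs.div_const ε))))))
      (HasCompactSupport.of_support_subset_isCompact (K := sbox lam) isCompact_sbox fun x hx =>
        by_contra fun h => hx ?_)
    have hz : ∀ j, pd j (fld K lam α β k ε u j) x = 0 := fun j => by
      have : x ∉ tsupport (fld K lam α β k ε u j) := fun h' => h
        ((closure_minimal (show Function.support (fld K lam α β k ε u j) ⊆ sbox lam from
          fun y hy => by_contra fun hy' => hy (by simp [fld, psi_eq_zero hlam hk0 hy']))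
          isCompact_sbox.isClosed) h')
      rw [pd, fderiv_of_notMem_tsupport ℝ this]
      rfl
    simp [err, hz, psi_eq_zero hlam hk0 h]
  have hS : ∫ x, ((∑ i, pd i (fun y => ψ y * flux ε u Φ i y) x)
      - ∑ j, pd j (fun y => res ε u y * fld K lam α β k ε u j y) x) = 0 := by
    rw [integral_sub (integrable_finsetSum _ fun i _ => int1 i)
      (integrable_finsetSum _ fun i _ => int2 i), integral_finsetSum _ fun i _ => int1 i,
      integral_finsetSum _ fun i _ => int2 i]
    simp [i1, i2]
  have hSi : Integrable fun x => (∑ i, pd i (fun y => ψ y * flux ε u Φ i y) x)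
      - ∑ j, pd j (fun y => res ε u y * fld K lam α β k ε u j y) x :=
    (integrable_finsetSum _ fun i _ => int1 i).sub (integrable_finsetSum _ fun i _ => int2 i)
  rw [← integral_const_mul]
  refine (integral_mono (hψi.const_mul lam) (hSi.add hint) fun x => ?_).trans_eq ?_
  swap
  · rw [integral_add' hSi hint, hS, zero_add]
  simp only [Pi.add_apply]
  simp only [pd_mul hψ (hfl _), pd_mul hres (hfd _), Finset.sum_add_distrib, ← Finset.mul_sum,
    div_flux hε0.ne' hu hΦ x]
  set f := res ε u x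
  set V := ∑ j, pd j (fld K lam α β k ε u j) x
  set D := ∑ j, pd j u x * pd j Φ x
  have hψ0 : 0 ≤ ψ x := Real.smoothTransition.nonneg _
  have hfV : f * V ≤ |f| * |V| := by rw [← abs_mul]; exact le_abs_self _
  have hμ : 1 ≤ mu ε u x := by
    refine Real.one_le_exp (div_nonneg ?_ (by positivity))
    exact Finset.sum_nonneg fun i _ => sq_nonneg _
  -- the boundary term of the first divergence is nonnegative
  have e1 : 0 ≤ ∑ i, flux ε u Φ i x * pd i ψ x := by
    have : ∑ i, flux ε u Φ i x * pd i ψ x = deriv Real.smoothTransition (Φ x - k) * mu ε u x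
        * (ε * ∑ i, pd i Φ x ^ 2 + (∑ j, pd j u x * pd j Φ x) ^ 2) := by
      simp only [ψ, pd_psi K lam α β k hu, flux, sum3]; ring
    rw [this]
    exact mul_nonneg (mul_nonneg (deriv_transition_nonneg _) (by linarith)) (add_nonneg
      (mul_nonneg hε0.le (Finset.sum_nonneg fun i _ => sq_nonneg _)) (sq_nonneg _))
  have e2 : ∑ j, fld K lam α β k ε u j x * pd j (res ε u) x
      = ψ x * mu ε u x * (cut lam x ^ 6 * ∑ j, (α * pd j u x + β * eJ j) * pd j (res ε u) x) := by
    simp only [fld, Z6f, Z4f, Z2f, sum3, ψ]; ring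
  rw [e2]
  simp only [err, D, V, f, ψ] at *
  rcases eq_or_lt_of_le hψ0 with h0 | h0
  · rw [← h0]
    linarith
  have hx : x ∈ sbox lam := by_contra fun h => h0.ne' (psi_eq_zero hlam hk0 h)
  obtain ⟨g1, g2, g3⟩ := hgood x hx
  have hbig : (9 * K + 400 * (100000 * Cz ^ 2) ^ 2 * K + 4) * lam < Φ x := by
    rw [← hk]
    by_contra hle
    exact h0.ne' (Real.smoothTransition.zero_of_nonpos (by simp only [Φ] at hle; linarith))
  have hp := pointwise (Cz := Cz) hab hCz hcut hK hlam hlam1 hε0.le hε hu g1 g2 g3 hbig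
  have hm := mul_le_mul_of_nonneg_left hp (mul_nonneg hψ0 (zero_le_one.trans hμ))
  have hl : psi K lam α β k u x * lam * 1 ≤ psi K lam α β k u x * lam * mu ε u x :=
    mul_le_mul_of_nonneg_left hμ (by positivity)
  have hfD := mul_le_mul_of_nonneg_left
    (neg_abs_le (res ε u x / ε * ∑ j, pd j u x * pd j Φ x))
    (mul_nonneg hψ0 (zero_le_one.trans hμ))
  rw [abs_mul, abs_div, abs_of_pos hε0] at hfD
  have hfD' : |res ε u x| / ε * |∑ j, pd j u x * pd j Φ x|
      = |res ε u x| * (|∑ j, pd j u x * pd j Φ x| / ε) := by ring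
  simp only [Φ, c, hfD'] at *
  linarith

end Vale.Agent.P080.C1.Bernstein
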